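import Vale.Agent.P247.H821.BrsLem

/-!
# P247, HODGE: two parametrisations of the branches at a point
-/

open scoped ContDiff Topology
open Set MeasureTheory Filter Metric

noncomputable section

namespace Vale.Agent.P247.H821

open Vale.Agent.P247.H74 Vale.Agent.P247.H574 Vale.Agent.P247.H690.HD

theorem repar_one {D : Data} {K : Set R4} {x : R4} {N N' : ℕ} {u : Fin N → ℂ → R4}
    {u' : Fin N' → ℂ → R4} {ε ε' : ℝ} (h : Brs D K x N u ε) (h' : Brs D K x N' u' ε') (l : Fin N) :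
    ∃ l', ∃ r > 0, r ≤ 1 ∧ ∃ φ : ℂ → ℂ, DifferentiableOn ℂ φ (ball 0 r) ∧
      InjOn φ (ball 0 r) ∧ φ 0 = 0 ∧ (∀ z ∈ ball (0 : ℂ) r, φ z ∈ ball (0 : ℂ) 1) ∧
      ∀ z ∈ ball (0 : ℂ) r, u l z = u' l' (φ z) := by
  obtain ⟨r, hr, hr1, hin⟩ := Brs.in_ball h l h'.posε
  have h12 : ball (0 : ℂ) 1 ⊆ ball 0 2 := ball_subset_ball (by norm_num)
  have hr2 : ball (0 : ℂ) r ⊆ ball 0 2 := (ball_subset_ball hr1).trans h12
  have h02 : (0 : ℂ) ∈ ball (0 : ℂ) 2 := mem_ball_self (by norm_num)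
  have h0r : (0 : ℂ) ∈ ball (0 : ℂ) r := mem_ball_self hr
  have hex : ∀ z : ℂ, ∃ l' w, z ∈ ball (0 : ℂ) r → (w ∈ ball (0 : ℂ) 1 ∧ u' l' w = u l z) := by
    intro z
    by_cases hz : z ∈ ball (0 : ℂ) r
    · obtain ⟨l', w, hw, hwz⟩ := h'.cov (u l z) (hin z hz) (h.mem l z (hr2 hz))
      exact ⟨l', w, fun _ => ⟨hw, hwz⟩⟩
    · exact ⟨⟨0, h'.posN⟩, 0, fun h => absurd h hz⟩
  choose L φ hφ using hex
  have hφ0 : φ 0 = 0 := by
    obtain ⟨h1, h2⟩ := hφ 0 h0r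
    rw [h.zero l, ← h'.zero (L 0)] at h2
    rcases h'.inj _ _ _ (h12 h1) _ h02 h2 with h3 | h3
    · exact h3.2
    · exact h3.1
  have hφne : ∀ z ∈ ball (0 : ℂ) r, z ≠ 0 → φ z ≠ 0 := by
    intro z hz hz0 h1
    have h2 := (hφ z hz).2
    rw [h1, h'.zero, ← h.zero l] at h2
    rcases h.inj _ _ _ h02 _ (hr2 hz) h2 with h3 | h3
    · exact hz0 h3.2.symm
    · exact hz0 h3.2
  -- local structure
  have hloc : ∀ z₀ ∈ ball (0 : ℂ) r, z₀ ≠ 0 → ∀ δ > 0,
      ∀ᶠ z in 𝓝 z₀, z ∈ ball (0 : ℂ) r ∧ L z = L z₀ ∧ φ z ∈ ball (φ z₀) δ := by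
    intro z₀ hz₀ h0 δ hδ
    obtain ⟨hm, he⟩ := hφ z₀ hz₀
    obtain ⟨ε₁, ⟨_, hnear⟩, hε₁⟩ := ((Brs.near_pt h' (h12 hm) (hφne z₀ hz₀ h0)
      (by rw [he]; exact hin z₀ hz₀) hδ).and (self_mem_nhdsWithin (s := Ioi (0 : ℝ)))).exists
    have hε₁' : 0 < ε₁ := hε₁
    have hc : ContinuousAt (u l) z₀ := (Brs.contAt h l (hr2 hz₀)).continuousAt
    filter_upwards [isOpen_ball.mem_nhds hz₀, hc.eventually (ball_mem_nhds _ hε₁')] with z hz hzy
    obtain ⟨hm', he'⟩ := hφ z hz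
    rw [← he', ← he] at hzy
    exact ⟨hz, hnear _ _ (h12 hm') hzy⟩
  -- the branch is constant
  have hLc : ContinuousOn L (ball (0 : ℂ) r \ {0}) := by
    rintro z₀ ⟨hz₀, h0⟩
    apply ContinuousAt.continuousWithinAt
    have h1 : L =ᶠ[𝓝 z₀] fun _ => L z₀ := by
      filter_upwards [hloc z₀ hz₀ h0 1 one_pos] with z hz using hz.2.1
    exact continuousAt_const.congr h1.symm
  have hp := isPreconnected_punct hr
  set l' : Fin N' := L ((r / 2 : ℝ) : ℂ) with hl'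
  have hhalf : (((r / 2 : ℝ) : ℂ)) ∈ ball (0 : ℂ) r \ {0} := by
    refine ⟨?_, ?_⟩
    · rw [mem_ball_zero_iff, Complex.norm_real, Real.norm_eq_abs, abs_of_pos (by positivity)]
      linarith
    · have : (r / 2 : ℝ) ≠ 0 := by positivity
      intro h
      have h2 : (((r / 2 : ℝ) : ℂ)) = 0 := h
      exact this (by exact_mod_cast h2)
  have hL : ∀ z ∈ ball (0 : ℂ) r, z ≠ 0 → L z = l' := fun z hz h0 =>
    hp.constant hLc ⟨hz, h0⟩ hhalf
  have hval : ∀ z ∈ ball (0 : ℂ) r, u l z = u' l' (φ z) := by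
    intro z hz
    by_cases h0 : z = 0
    · rw [h0, hφ0, h.zero, h'.zero]
    · rw [← hL z hz h0]
      exact (hφ z hz).2.symm
  refine ⟨l', r, hr, hr1, φ, ?_, ?_, hφ0, fun z hz => (hφ z hz).1, hval⟩
  · rw [← Complex.differentiableOn_compl_singleton_and_continuousAt_iff (isOpen_ball.mem_nhds h0r)]
    refine ⟨?_, ?_⟩
    · rintro z₀ ⟨hz₀, h0⟩
      apply DifferentiableAt.differentiableWithinAt
      have h0' : z₀ ≠ 0 := h0
      have hm2 : φ z₀ ∈ ball (0 : ℂ) 2 := h12 (hφ z₀ hz₀).1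
      have hne' := hφne z₀ hz₀ h0'
      have hud : HasFDerivAt (u' l') (fderiv ℝ (u' l') (φ z₀)) (φ z₀) :=
        ((Brs.contAt h' l' hm2).differentiableAt (by simp)).hasFDerivAt
      have hinj : ∀ v, fderiv ℝ (u' l') (φ z₀) v = 0 → v = 0 := fun v hv =>
        Brs.fderiv_inj h' l' hm2 (h'.imm l' _ hm2 hne') hv
      obtain ⟨P, δ, hδ, hP⟩ := Vale.Agent.P247.H690.END.exists_local_left'
        ((Brs.contAt h' l' hm2).of_le (by simp)) hud hinj
      have h1 : φ =ᶠ[𝓝 z₀] fun z => P (u l z) := by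
        filter_upwards [hloc z₀ hz₀ h0' δ hδ] with z hz
        rw [hval z hz.1, (hP _ hz.2.2).1]
      have hul : HasFDerivAt (u l) (fderiv ℝ (u l) z₀) z₀ :=
        ((Brs.contAt h l (hr2 hz₀)).differentiableAt (by simp)).hasFDerivAt
      have h2 : DifferentiableAt ℝ P (u l z₀) := by
        rw [hval z₀ hz₀]
        exact (hP _ (mem_ball_self hδ)).2
      have h3 : DifferentiableAt ℝ φ z₀ :=
        (DifferentiableAt.comp z₀ h2 hul.differentiableAt).congr_of_eventuallyEq h1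
      rw [differentiableAt_complex_iff_differentiableAt_real]
      refine ⟨h3, ?_⟩
      have h4 : u l =ᶠ[𝓝 z₀] fun z => u' l' (φ z) := by
        filter_upwards [isOpen_ball.mem_nhds hz₀] with z hz using hval z hz
      have h5 : fderiv ℝ (u l) z₀ = (fderiv ℝ (u' l') (φ z₀)).comp (fderiv ℝ φ z₀) := by
        rw [h4.fderiv_eq]
        exact (hud.comp z₀ h3.hasFDerivAt).fderiv
      have h6 : ∀ ζ, fderiv ℝ (u l) z₀ ζ = fderiv ℝ (u' l') (φ z₀) (fderiv ℝ φ z₀ ζ) := fun ζ => by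
        rw [h5]; rfl
      have h7 := (h.disc l).hol z₀ (hr2 hz₀)
      rw [h6, h6, hval z₀ hz₀, Brs.J_fderiv h' l' hm2] at h7
      have h8 := hinj (fderiv ℝ φ z₀ Complex.I - Complex.I * fderiv ℝ φ z₀ 1)
        (by rw [map_sub, h7, sub_self])
      rw [smul_eq_mul]
      exact sub_eq_zero.1 h8
    · rw [Metric.continuousAt_iff']
      intro ρ hρ
      obtain ⟨ε₁, ⟨_, hnear⟩, hε₁⟩ := ((Brs.near_zero h' hρ).and
        (self_mem_nhdsWithin (s := Ioi (0 : ℝ)))).exists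
      have hc : ContinuousAt (u l) 0 := (Brs.contAt h l h02).continuousAt
      have hb : ball x ε₁ ∈ 𝓝 (u l 0) := by
        rw [h.zero]; exact ball_mem_nhds _ hε₁
      filter_upwards [isOpen_ball.mem_nhds h0r, hc.eventually hb] with z hz hzy
      rw [hφ0]
      have := hnear l' (φ z) (h12 (hφ z hz).1) (by rw [← hval z hz]; exact hzy)
      exact this
  · intro z hz w hw hzw
    have h1 : u l z = u l w := by rw [hval z hz, hval w hw, hzw]
    rcases h.inj _ _ _ (hr2 hz) _ (hr2 hw) h1 with h2 | h2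
    · exact h2.2
    · rw [h2.1, h2.2]

/-- the image of an injective holomorphic function is a neighbourhood -/
theorem image_nhds {φ : ℂ → ℂ} {r : ℝ} (hr : 0 < r) (hd : DifferentiableOn ℂ φ (ball 0 r))
    (hi : InjOn φ (ball 0 r)) {z₀ : ℂ} (hz₀ : z₀ ∈ ball (0 : ℂ) r) {s : Set ℂ} (hs : s ∈ 𝓝 z₀) :
    φ '' (s ∩ ball 0 r) ∈ 𝓝 (φ z₀) := by
  have ha : AnalyticOnNhd ℂ φ (ball 0 r) := hd.analyticOnNhd isOpen_ball
  rcases ha.is_constant_or_isOpen isPreconnected_ball with ⟨w, hw⟩ | h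
  · exfalso
    have h0 : (0 : ℂ) ∈ ball (0 : ℂ) r := mem_ball_self hr
    have h1 : (((r / 2 : ℝ) : ℂ)) ∈ ball (0 : ℂ) r := by
      rw [mem_ball_zero_iff, Complex.norm_real, Real.norm_eq_abs, abs_of_pos (by positivity)]
      linarith
    have h2 := hi h0 h1 (by rw [hw _ h0, hw _ h1])
    have : (r / 2 : ℝ) ≠ 0 := by positivity
    exact this (by exact_mod_cast h2.symm)
  · obtain ⟨o, ho, hoo, hzo⟩ := _root_.mem_nhds_iff.1 hs
    have h1 := h (o ∩ ball 0 r) inter_subset_right (hoo.inter isOpen_ball)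
    refine mem_of_superset (h1.mem_nhds ⟨z₀, ⟨hzo, hz₀⟩, rfl⟩) ?_
    exact image_mono (inter_subset_inter_left _ ho)

theorem card_le {D : Data} {K : Set R4} {x : R4} {N N' : ℕ} {u : Fin N → ℂ → R4}
    {u' : Fin N' → ℂ → R4} {ε ε' : ℝ} (h : Brs D K x N u ε) (h' : Brs D K x N' u' ε') :
    N ≤ N' := by
  choose L r hr hr1 φ hd hi h0 hm hv using fun l => repar_one h h' l
  have hinj : Function.Injective L := by
    intro a b hab
    have h1 := image_nhds (hr a) (hd a) (hi a) (mem_ball_self (hr a)) (s := univ) univ_mem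
    have h2 := image_nhds (hr b) (hd b) (hi b) (mem_ball_self (hr b)) (s := univ) univ_mem
    rw [h0 a, univ_inter] at h1
    rw [h0 b, univ_inter] at h2
    obtain ⟨ρ, hρ, h3⟩ := Metric.mem_nhds_iff.1 (inter_mem h1 h2)
    have h4 : (((ρ / 2 : ℝ) : ℂ)) ∈ ball (0 : ℂ) ρ := by
      rw [mem_ball_zero_iff, Complex.norm_real, Real.norm_eq_abs, abs_of_pos (by positivity)]
      linarith
    have h5 : (((ρ / 2 : ℝ) : ℂ)) ≠ 0 := by
      have : (ρ / 2 : ℝ) ≠ 0 := by positivity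
      exact_mod_cast this
    obtain ⟨⟨z, hz, hz1⟩, ⟨w, hw, hw1⟩⟩ := h3 h4
    have h6 : u a z = u b w := by
      rw [hv a z hz, hv b w hw, hz1, hw1, hab]
    have hr2 : ∀ c, ball (0 : ℂ) (r c) ⊆ ball 0 2 := fun c =>
      ball_subset_ball ((hr1 c).trans (by norm_num))
    rcases h.inj _ _ _ (hr2 a hz) _ (hr2 b hw) h6 with h7 | h7
    · exact h7.1
    · rw [h7.1, h0 a] at hz1
      exact absurd hz1.symm h5
  simpa using Fintype.card_le_of_injective L hinj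

/-- `REPAR` -/
theorem REPAR : REPAR_statement := by
  intro D K x N N' u u' ε ε' h h'
  refine ⟨le_antisymm (card_le h h') (card_le h' h), fun l => ?_⟩
  obtain ⟨l', r, hr, _, φ, h1, h2, h3, h4, h5⟩ := repar_one h h' l
  exact ⟨l', r, hr, φ, h1, h2, h3, h4, h5⟩

end Vale.Agent.P247.H821
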