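import Vale.Agent.P247.H821.H3
import Vale.Agent.P247.H264.Mass

/-!
# P247, HODGE, step H3: conclusion
-/

open scoped ContDiff Topology ENNReal NNReal
open Set MeasureTheory Filter Metric

noncomputable section

namespace Vale.Agent.P247.H821

open Vale.Agent.P247.H74 Vale.Agent.P247.H574 Vale.Agent.P247.H710 Vale.Agent.P247.H690.HD

attribute [local instance] f2G f2S f1G f1S

/-- an alternating form in the coordinate forms -/
theorem kappa_eq (κ : F2) (hκ : ∀ u, κ u u = 0) :
    κ = ∑ p : Fin 4 × Fin 4, (κ (e p.1) (e p.2) / 2) • wg (pj p.1) (pj p.2) := by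
  have halt : ∀ u v, κ u v = -κ v u := by
    intro u v
    have h1 := hκ (u + v)
    have h2 : κ (u + v) = κ u + κ v := map_add κ u v
    rw [h2, add_apply, map_add, map_add, hκ, hκ] at h1
    linarith
  have hexp : ∀ u : R4, u = ∑ i, u i • e i := by
    intro u
    funext j
    rw [Finset.sum_apply]
    simp [e, Pi.single_apply]
  have h2 : ∀ u v, κ u v = ∑ p : Fin 4 × Fin 4, u p.1 * v p.2 * κ (e p.1) (e p.2) := by
    intro u v
    have a1 : κ u = ∑ i, u i • κ (e i) := by
      conv_lhs => rw [hexp u]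
      rw [map_sum]
      exact Finset.sum_congr rfl fun i _ => map_smul κ _ _
    have a2 : ∀ w, κ w v = ∑ j, v j * κ w (e j) := by
      intro w
      conv_lhs => rw [hexp v]
      rw [map_sum]
      exact Finset.sum_congr rfl fun i _ => map_smul (κ w) _ _
    rw [a1, sum_apply, Fintype.sum_prod_type]
    refine Finset.sum_congr rfl fun i _ => ?_
    rw [smul_apply, a2, Finset.smul_sum]
    refine Finset.sum_congr rfl fun j _ => ?_
    rw [smul_eq_mul]
    ring
  ext u v
  rw [sum_apply, sum_apply]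
  have h3 : κ u v = (κ u v - κ v u) / 2 := by rw [halt v u]; ring
  rw [h3, h2 u v, h2 v u]
  rw [← Finset.sum_sub_distrib, Finset.sum_div]
  have h4 : ∀ p : Fin 4 × Fin 4, ((κ (e p.1) (e p.2) / 2) • wg (pj p.1) (pj p.2)) u v =
      κ (e p.1) (e p.2) / 2 * (u p.1 * v p.2 - u p.2 * v p.1) := fun p => rfl
  rw [Finset.sum_congr rfl fun p _ => h4 p]
  exact Finset.sum_congr rfl fun p _ => by ring

variable {D : Data} {S : ICur D} {F : Fin 4 → ℕ → R4 → ℝ}

section

variable (hM : ∀ j, Mini S j (F j)) (hL : Lims S F) (hS : ∀ x ∈ S.supp, LocStr S x)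
include hM hL hS

theorem TZ_om : TZ S F (fun x => bet x • cf2 D.om x) = 0 := by
  have hF := TZ_fnl hM hL hS
  have hb : Continuous bet := bet_smooth.continuous
  have c1 : CF (fun x => bet x • D.om.κ) :=
    CF.fmul hb bet_compact continuous_const fun _ u => D.om.κ_self u
  have c2 : CF (fun x => bet x • dd D.om.lam x) :=
    CF.fmul hb bet_compact (continuous_flip_fderiv D.om.lam_smooth) (dd_self _)
  have h1 : (fun x => bet x • cf2 D.om x) = fun x => bet x • D.om.κ + bet x • dd D.om.lam x := by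
    funext x
    rw [← smul_add]
    rfl
  rw [h1, Fn_add hF c1 c2, Fn_exact hF bet_isPU D.om.lam_smooth (fun k x => D.om.lam_per k x),
    add_zero]
  have c3 : ∀ p : Fin 4 × Fin 4, CF (fun x => bet x • wg (pj p.1) (pj p.2)) := fun p =>
    CF.fmul hb bet_compact continuous_const fun x u => wg_self _ _ _
  have h2 : (fun x => bet x • D.om.κ) = fun x => ∑ p : Fin 4 × Fin 4,
      ((D.om.κ (e p.1) (e p.2) / 2) • fun x => bet x • wg (pj p.1) (pj p.2)) x := by
    funext x
    conv_lhs => rw [kappa_eq D.om.κ D.om.κ_self]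
    rw [Finset.smul_sum]
    refine Finset.sum_congr rfl fun p _ => ?_
    show bet x • ((D.om.κ (e p.1) (e p.2) / 2) • wg (pj p.1) (pj p.2)) =
      (D.om.κ (e p.1) (e p.2) / 2) • (bet x • wg (pj p.1) (pj p.2))
    rw [smul_comm]
  rw [h2, Fn_sum hF Finset.univ fun p _ => CF.smul _ (c3 p)]
  apply Finset.sum_eq_zero
  intro p _
  rw [hF.smul _ _ (c3 p), TZ_dxx hM hL hS p.1 p.2, mul_zero]

/-- no mass -/
theorem TZ_om_le {f : R4 → ℝ} (hf : Continuous f) (hs : HasCompactSupport f) :
    TZ S F (fun x => f x • cf2 D.om x) ≤ 0 := by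
  have hF := TZ_fnl hM hL hS
  have hb : Continuous bet := bet_smooth.continuous
  have hom := H264.continuous_cf2 D.om
  have hself : ∀ x u, cf2 D.om x u u = 0 := fun x u => H264.cf2_self D.om x u
  have htame : ∀ x u, 0 ≤ cf2 D.om x u (D.J x u) := by
    intro x u
    obtain ⟨c, hc, h⟩ := H264.exists_tame D
    exact le_trans (by positivity) (h x u)
  obtain ⟨M, hM'⟩ := hs.exists_bound_of_continuous hf
  have hM0 : 0 ≤ M := (norm_nonneg _).trans (hM' 0)
  have hfM : ∀ y, f y ≤ M := fun y => (le_abs_self _).trans (hM' y)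
  obtain ⟨s, -, hs2⟩ := exists_window (tsupport f ∪ tsupport bet)
    (hs.isCompact.isBounded.union bet_compact.isCompact.isBounded)
  have hsum : ∀ x ∈ tsupport f, ∑ k ∈ s, bet (tr k x) = 1 := by
    intro x hx
    rw [← (hasSum_bet x).tsum_eq]
    symm
    apply tsum_eq_sum
    intro k hk
    by_contra hne
    exact hk (hs2 k x (Or.inl hx) (Or.inr (subset_tsupport _ hne)))
  have c0 : CF (fun x => f x • cf2 D.om x) := CF.fmul hf hs hom hself
  have cb : CF (fun x => bet x • cf2 D.om x) := CF.fmul hb bet_compact hom hself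
  have ck : ∀ k, CF (fun x => bet (tr k x) • cf2 D.om x) := by
    intro k
    exact CF.fmul (hb.comp (tr_continuous k)) (bet_compact.comp_homeomorph (trH k)) hom hself
  have hk0 : ∀ k, TZ S F (fun x => bet (tr k x) • cf2 D.om x) = 0 := by
    intro k
    rw [← TZ_om hM hL hS, ← hF.per _ cb k]
    congr 1
    funext x
    have : cf2 D.om (tr k x) = cf2 D.om x := by
      ext u v
      rw [H264.cf2_apply, H264.cf2_apply]
      exact H264.val_tr D.om k x u v
    rw [this]
  have cs : CF (fun x => ∑ k ∈ s, bet (tr k x) • cf2 D.om x) := CF.sum s fun k _ => ck k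
  have h1 : TZ S F (fun x => f x • cf2 D.om x) ≤
      TZ S F (M • fun x => ∑ k ∈ s, bet (tr k x) • cf2 D.om x) := by
    refine TZ_mono hM hL hS c0 (CF.smul M cs) fun x u => ?_
    show f x * cf2 D.om x u (D.J x u) ≤
      M * (∑ k ∈ s, bet (tr k x) • cf2 D.om x) u (D.J x u)
    rw [← Finset.sum_smul]
    show f x * cf2 D.om x u (D.J x u) ≤
      M * ((∑ k ∈ s, bet (tr k x)) * cf2 D.om x u (D.J x u))
    rw [← mul_assoc]
    apply mul_le_mul_of_nonneg_right _ (htame x u)
    by_cases hx : x ∈ tsupport f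
    · rw [hsum x hx, mul_one]
      exact hfM x
    · rw [image_eq_zero_of_notMem_tsupport hx]
      exact mul_nonneg hM0 (Finset.sum_nonneg fun k _ => bet_nonneg _)
  rw [hF.smul _ _ cs, Fn_sum hF s fun k _ => ck k, Finset.sum_eq_zero fun k _ => hk0 k,
    mul_zero] at h1
  exact h1

theorem ZZ_empty (y : R4) : y ∉ ZZ S F := by
  intro hy
  have hyS : y ∈ S.supp := hy.1
  obtain ⟨N, u, k, ε, hb, h1, hv⟩ := hS y hyS
  have h : LS1 S y N u k ε := ⟨hb, h1, hv⟩
  obtain ⟨A, ρ, hρ, hρε, hiff, hlim⟩ := local_lim hM hL hyS h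
  obtain ⟨ρ', hρ', hopen⟩ := ZZ_open hy
  have hA : ∀ l, l ∈ A := by
    intro l
    obtain ⟨r, hr, hr1, hin⟩ := Brs.in_ball hb l (lt_min hρ hρ')
    have hz : (((r / 2 : ℝ) : ℂ)) ∈ ball (0 : ℂ) r := by
      rw [mem_ball_zero_iff, Complex.norm_real, Real.norm_eq_abs, abs_of_pos (by positivity)]
      linarith
    have hz0 : (((r / 2 : ℝ) : ℂ)) ≠ 0 := by
      have : (r / 2 : ℝ) ≠ 0 := by positivity
      exact_mod_cast this
    have hz2 : (((r / 2 : ℝ) : ℂ)) ∈ ball (0 : ℂ) 2 :=
      ball_subset_ball (hr1.trans (by norm_num)) hz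
    have h2 := hin _ hz
    rw [← hiff l _ hz2 hz0 (ball_subset_ball (min_le_left _ _) h2)]
    exact hopen _ (hb.mem l _ hz2) (ball_subset_ball (min_le_right _ _) h2)
  -- a bump function
  let φ : ContDiffBump y := ⟨ρ / 4, ρ / 2, by positivity, by linarith⟩
  have hf : Continuous φ := φ.continuous
  have hs : HasCompactSupport φ := φ.hasCompactSupport
  have hp : ∀ x, 0 ≤ φ x := fun x => φ.nonneg
  have hts : tsupport φ ⊆ ball y ρ := by
    rw [φ.tsupport_eq]
    exact closedBall_subset_ball (show ρ / 2 < ρ by linarith)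
  have hom := H264.continuous_cf2 D.om
  have hself : ∀ x u, cf2 D.om x u u = 0 := fun x u => H264.cf2_self D.om x u
  have c0 : CF (fun x => φ x • cf2 D.om x) := CF.fmul hf hs hom hself
  have hsub : tsupport (fun x => φ x • cf2 D.om x) ⊆ ball y ρ := tsupp_sub.trans hts
  have e1 : TZ S F (fun x => φ x • cf2 D.om x) = S.T (fun x => φ x • cf2 D.om x) := by
    have h2 := tendsto_nhds_unique (TZ_tendsto hM hL hS c0) (hlim _ c0 hsub)
    rw [h2, hv _ c0 (hsub.trans (ball_subset_ball hρε))]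
    refine Finset.sum_congr rfl fun l _ => ?_
    rw [if_pos (hA l)]
  have e2 := TZ_om_le hM hL hS hf hs
  rw [e1] at e2
  obtain ⟨μ, hμ, -, hsupp⟩ := H264.MASS D S
  have := hμ.1
  rw [hμ.2 _ hf hs] at e2
  have hpos := (hsupp y).1 hyS (ρ / 4) (by positivity)
  have hint : Integrable φ μ := hf.integrable_of_hasCompactSupport hs
  have h3 : ∫ x in ball y (ρ / 4), (1 : ℝ) ∂μ ≤ ∫ x, φ x ∂μ := by
    calc ∫ x in ball y (ρ / 4), (1 : ℝ) ∂μ = ∫ x in ball y (ρ / 4), φ x ∂μ := by
          refine setIntegral_congr_fun measurableSet_ball fun x hx => ?_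
          exact (φ.one_of_mem_closedBall (ball_subset_closedBall hx)).symm
      _ ≤ ∫ x, φ x ∂μ := setIntegral_le_integral hint (ae_of_all _ hp)
  rw [setIntegral_const, smul_eq_mul, mul_one] at h3
  have h4 : 0 < μ.real (ball y (ρ / 4)) := by
    rw [measureReal_def]
    exact ENNReal.toReal_pos hpos.ne' measure_ball_lt_top.ne
  linarith

end

/-- `H3` -/
theorem H3 : H3_statement := by
  intro D S F hS hM hL x hx N u k ε h l r hr hr1 hh hlim
  by_contra hn
  push Not at hn
  obtain ⟨r', hr', hr1', hin⟩ := Brs.in_ball h.brs l h.brs.posε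
  set t : ℝ := min r r' / 2 with ht
  have ht0 : 0 < t := by
    have := lt_min hr hr'
    positivity
  have htn : ‖((t : ℝ) : ℂ)‖ = t := by
    rw [Complex.norm_real, Real.norm_eq_abs, abs_of_pos ht0]
  have h1 : ((t : ℝ) : ℂ) ∈ ball (0 : ℂ) r := by
    rw [mem_ball_zero_iff, htn]
    have := min_le_left r r'
    linarith
  have h2 : ((t : ℝ) : ℂ) ∈ ball (0 : ℂ) r' := by
    rw [mem_ball_zero_iff, htn]
    have := min_le_right r r'
    linarith
  have h3 : ((t : ℝ) : ℂ) ≠ 0 := by exact_mod_cast ht0.ne'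
  exact ZZ_empty hM hL hS _ (mem_ZZ_of_zero h (fun j n => (hM j).smooth n) hr1 hlim hn h1 h3
    (hin _ h2))

end Vale.Agent.P247.H821
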