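import Vale.Agent.P247.H690.HD.Sta
import Vale.Agent.P247.H690.END.Tori

/-!
# P247, HODGE: the topology of the branches, recentring
-/

open scoped ContDiff Topology
open Set MeasureTheory Filter Metric

noncomputable section

namespace Vale.Agent.P247.H821

open Vale.Agent.P247.H74 Vale.Agent.P247.H574 Vale.Agent.P247.H690.HD

theorem isPreconnected_punct {r : ℝ} (hr : 0 < r) : IsPreconnected (ball (0 : ℂ) r \ {0}) := by
  have h1 : IsPreconnected ({0}ᶜ : Set ℂ) := by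
    have h2 : 1 < Module.rank ℝ ℂ := by
      rw [Complex.rank_real_complex]
      exact_mod_cast one_lt_two
    exact (isConnected_compl_singleton_of_one_lt_rank h2 0).isPreconnected
  have hc : Continuous fun y : ℂ => ((r / (1 + ‖y‖) : ℝ) : ℂ) * y := by
    have h3 : ∀ y : ℂ, 1 + ‖y‖ ≠ 0 := fun y => by positivity
    have h4 : Continuous fun y : ℂ => r / (1 + ‖y‖) :=
      continuous_const.div (continuous_const.add continuous_norm) h3
    exact (Complex.continuous_ofReal.comp h4).mul continuous_id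
  have h2 := h1.image _ hc.continuousOn
  convert h2 using 1
  apply Subset.antisymm
  · rintro z ⟨hz, hz0⟩
    rw [mem_ball_zero_iff] at hz
    have hz0' : z ≠ 0 := hz0
    have hd : 0 < r - ‖z‖ := by linarith
    refine ⟨((1 / (r - ‖z‖) : ℝ) : ℂ) * z, ?_, ?_⟩
    · exact mul_ne_zero (by exact_mod_cast (one_div_pos.2 hd).ne') hz0'
    · simp only
      rw [norm_mul, Complex.norm_real, Real.norm_eq_abs, abs_of_pos (one_div_pos.2 hd),
        ← mul_assoc, ← Complex.ofReal_mul]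
      have : r / (1 + 1 / (r - ‖z‖) * ‖z‖) * (1 / (r - ‖z‖)) = 1 := by
        field_simp
        ring
      rw [this]
      simp
  · rintro _ ⟨y, hy, rfl⟩
    have hy0 : y ≠ 0 := hy
    have hp : 0 < 1 + ‖y‖ := by positivity
    refine ⟨?_, ?_⟩
    · rw [mem_ball_zero_iff, norm_mul, Complex.norm_real, Real.norm_eq_abs,
        abs_of_pos (div_pos hr hp), div_mul_eq_mul_div, div_lt_iff₀ hp]
      nlinarith [norm_nonneg y]
    · exact mul_ne_zero (by exact_mod_cast (div_pos hr hp).ne') hy0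

theorem far_aux {u : ℂ → R4} (hc : ContinuousOn u (closedBall 0 1)) {A : Set ℂ} (hA : IsClosed A)
    (hsub : A ⊆ closedBall 0 1) {y : R4} (hy : ∀ z ∈ A, u z ≠ y) :
    ∀ᶠ ε' in 𝓝[>] (0 : ℝ), ∀ z ∈ A, u z ∉ ball y ε' := by
  have h1 : IsCompact (u '' A) :=
    ((isCompact_closedBall (0 : ℂ) 1).of_isClosed_subset hA hsub).image_of_continuousOn
      (hc.mono hsub)
  have h2 : y ∈ (u '' A)ᶜ := by
    rintro ⟨z, hz, hzy⟩
    exact hy z hz hzy
  obtain ⟨ε₁, hε₁, h3⟩ := Metric.isOpen_iff.1 h1.isClosed.isOpen_compl y h2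
  filter_upwards [Ioo_mem_nhdsGT hε₁] with ε' hε' z hz hzy
  exact h3 (ball_subset_ball hε'.2.le hzy) ⟨z, hz, rfl⟩

section

variable {D : Data} {K : Set R4} {x : R4} {N : ℕ} {u : Fin N → ℂ → R4} {ε : ℝ}

theorem cball_sub : closedBall (0 : ℂ) 1 ⊆ ball 0 2 := closedBall_subset_ball (by norm_num)

theorem Brs.cont (h : Brs D K x N u ε) (l : Fin N) : ContinuousOn (u l) (closedBall 0 1) :=
  (h.disc l).smooth.continuousOn.mono cball_sub

theorem Brs.contAt (h : Brs D K x N u ε) (l : Fin N) {z : ℂ} (hz : z ∈ ball (0 : ℂ) 2) :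
    ContDiffAt ℝ ∞ (u l) z := (h.disc l).smooth.contDiffAt (isOpen_ball.mem_nhds hz)

theorem Brs.in_one (h : Brs D K x N u ε) {l : Fin N} {z : ℂ} (hz : z ∈ ball (0 : ℂ) 2)
    (hx : u l z ∈ ball x ε) : z ∈ ball (0 : ℂ) 1 := by
  rw [mem_ball_zero_iff]
  by_contra hn
  rw [not_lt] at hn
  have h1 := h.far l z hz hn
  rw [mem_ball] at hx
  linarith

/-- points close to the centre have small parameters -/
theorem Brs.near_zero (h : Brs D K x N u ε) {r : ℝ} (hr : 0 < r) :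
    ∀ᶠ ε' in 𝓝[>] (0 : ℝ), ε' ≤ ε ∧ ∀ l, ∀ z ∈ ball (0 : ℂ) 2, u l z ∈ ball x ε' →
      z ∈ ball (0 : ℂ) r := by
  have h1 : ∀ l, ∀ᶠ ε' in 𝓝[>] (0 : ℝ), ∀ z ∈ closedBall (0 : ℂ) 1 \ ball 0 r,
      u l z ∉ ball x ε' := by
    intro l
    apply far_aux (Brs.cont h l) (isClosed_closedBall.sdiff isOpen_ball) sdiff_subset
    rintro z ⟨hz, hzr⟩ hzx
    rw [← h.zero l] at hzx
    rcases h.inj l l z (cball_sub hz) 0 (mem_ball_self (by norm_num)) hzx with h2 | h2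
    · rw [h2.2] at hzr
      exact hzr (mem_ball_self hr)
    · rw [h2.1] at hzr
      exact hzr (mem_ball_self hr)
  filter_upwards [eventually_all.2 h1, Ioo_mem_nhdsGT h.posε] with ε' h2 h3
  refine ⟨h3.2.le, fun l z hz hx => ?_⟩
  by_contra hn
  have h4 := Brs.in_one h hz (ball_subset_ball h3.2.le hx)
  exact h2 l z ⟨ball_subset_closedBall h4, hn⟩ hx

/-- near a point off the centre there is only one branch -/
theorem Brs.near_pt (h : Brs D K x N u ε) {l : Fin N} {z₀ : ℂ} (hz₀ : z₀ ∈ ball (0 : ℂ) 2)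
    (h0 : z₀ ≠ 0) (hx : u l z₀ ∈ ball x ε) {δ : ℝ} (hδ : 0 < δ) :
    ∀ᶠ ε' in 𝓝[>] (0 : ℝ), ball (u l z₀) ε' ⊆ ball x ε ∧ ∀ l', ∀ z ∈ ball (0 : ℂ) 2,
      u l' z ∈ ball (u l z₀) ε' → l' = l ∧ z ∈ ball z₀ δ := by
  classical
  have h1 : ∀ l', ∀ᶠ ε' in 𝓝[>] (0 : ℝ),
      ∀ z ∈ (if l' = l then closedBall (0 : ℂ) 1 \ ball z₀ δ else closedBall (0 : ℂ) 1),
      u l' z ∉ ball (u l z₀) ε' := by
    intro l'
    by_cases hl : l' = l
    · rw [if_pos hl]
      apply far_aux (Brs.cont h l') (isClosed_closedBall.sdiff isOpen_ball) sdiff_subset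
      rintro z ⟨hz, hzr⟩ hzx
      subst hl
      rcases h.inj l' l' z (cball_sub hz) z₀ hz₀ hzx with h2 | h2
      · rw [h2.2] at hzr
        exact hzr (mem_ball_self hδ)
      · exact h0 h2.2
    · rw [if_neg hl]
      apply far_aux (Brs.cont h l') isClosed_closedBall Subset.rfl
      intro z hz hzx
      rcases h.inj l' l z (cball_sub hz) z₀ hz₀ hzx with h2 | h2
      · exact hl h2.1
      · exact h0 h2.2
  have h5 : 0 < ε - dist (u l z₀) x := by
    rw [mem_ball] at hx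
    linarith
  filter_upwards [eventually_all.2 h1, Ioo_mem_nhdsGT h5] with ε' h2 h3
  have hsub : ball (u l z₀) ε' ⊆ ball x ε := by
    apply ball_subset_ball'
    linarith [h3.2]
  refine ⟨hsub, fun l' z hz hzx => ?_⟩
  have h4 := Brs.in_one h hz (hsub hzx)
  by_cases hl : l' = l
  · refine ⟨hl, ?_⟩
    by_contra hn
    have h6 := h2 l' z
    rw [if_pos hl] at h6
    exact h6 ⟨ball_subset_closedBall h4, hn⟩ hzx
  · have h6 := h2 l' z
    rw [if_neg hl] at h6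
    exact absurd hzx (h6 (ball_subset_closedBall h4))

/-- parameters which are mapped into the ball -/
theorem Brs.in_ball (h : Brs D K x N u ε) (l : Fin N) {ε' : ℝ} (hε' : 0 < ε') :
    ∃ r > 0, r ≤ 1 ∧ ∀ z ∈ ball (0 : ℂ) r, u l z ∈ ball x ε' := by
  have h1 : ContinuousAt (u l) 0 := (Brs.contAt h l (mem_ball_self (by norm_num))).continuousAt
  have h2 : ∀ᶠ z in 𝓝 (0 : ℂ), u l z ∈ ball x ε' :=
    h1.eventually (by rw [h.zero l]; exact ball_mem_nhds _ hε')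
  obtain ⟨δ, hδ, h3⟩ := Metric.eventually_nhds_iff_ball.1 h2
  exact ⟨min δ 1, lt_min hδ one_pos, min_le_right _ _, fun z hz =>
    h3 z (ball_subset_ball (min_le_left _ _) hz)⟩

/-- the J-linear extension of the derivative -/
theorem Brs.fderiv_eq (h : Brs D K x N u ε) (l : Fin N) {z : ℂ} (hz : z ∈ ball (0 : ℂ) 2) (ζ : ℂ) :
    fderiv ℝ (u l) z ζ = ζ.re • fderiv ℝ (u l) z 1 +
      ζ.im • D.J (u l z) (fderiv ℝ (u l) z 1) := by
  rw [← (h.disc l).hol z hz, ← map_smul, ← map_smul, ← map_add]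
  congr 1
  apply Complex.ext <;> simp

theorem Brs.J_fderiv (h : Brs D K x N u ε) (l : Fin N) {z : ℂ} (hz : z ∈ ball (0 : ℂ) 2) (ζ : ℂ) :
    D.J (u l z) (fderiv ℝ (u l) z ζ) = fderiv ℝ (u l) z (Complex.I * ζ) := by
  rw [Brs.fderiv_eq h l hz ζ, Brs.fderiv_eq h l hz (Complex.I * ζ), map_add, map_smul, map_smul,
    D.J_sq]
  simp only [Complex.mul_re, Complex.I_re, Complex.I_im, Complex.mul_im]
  module

theorem Brs.fderiv_inj (h : Brs D K x N u ε) (l : Fin N) {z : ℂ} (hz : z ∈ ball (0 : ℂ) 2)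
    (hne : fderiv ℝ (u l) z 1 ≠ 0) {ζ : ℂ} (h0 : fderiv ℝ (u l) z ζ = 0) : ζ = 0 := by
  have h1 := Brs.fderiv_eq h l hz ζ
  set a := fderiv ℝ (u l) z 1 with ha
  rw [h1] at h0
  have h2 : ζ.re • D.J (u l z) a - ζ.im • a = 0 := by
    have := congrArg (D.J (u l z)) h0
    rw [map_add, map_smul, map_smul, D.J_sq, map_zero] at this
    rw [← this]
    module
  have h3 : (ζ.re ^ 2 + ζ.im ^ 2) • a = 0 := by
    have h4 : (ζ.re ^ 2 + ζ.im ^ 2) • a = ζ.re • (ζ.re • a + ζ.im • D.J (u l z) a) -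
        ζ.im • (ζ.re • D.J (u l z) a - ζ.im • a) := by module
    rw [h4, h0, h2]
    simp
  rcases smul_eq_zero.1 h3 with h4 | h4
  · apply Complex.ext
    · simp only [Complex.zero_re]; nlinarith [sq_nonneg ζ.re, sq_nonneg ζ.im]
    · simp only [Complex.zero_im]; nlinarith [sq_nonneg ζ.re, sq_nonneg ζ.im]
  · exact absurd h4 hne

end

/-- `RECENTER` -/
theorem RECENTER : RECENTER_statement := by
  intro D K x N u ε h l
  obtain ⟨r₀, hr₀, hr₁, hin⟩ := Brs.in_ball h l h.posε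
  refine ⟨r₀, hr₀, fun z₀ hz₀ h0 => ?_⟩
  have hz1 : z₀ ∈ ball (0 : ℂ) 1 := ball_subset_ball hr₁ hz₀
  have hz2 : z₀ ∈ ball (0 : ℂ) 2 := ball_subset_ball (by norm_num) hz1
  have hn1 : ‖z₀‖ < 1 := mem_ball_zero_iff.1 hz1
  have hn0 : 0 < ‖z₀‖ := norm_pos_iff.2 h0
  refine ⟨h.imm l z₀ hz2 h0, ‖z₀‖ / 3, by positivity, fun s hs hs3 => ?_⟩
  obtain ⟨ε', ⟨hsub, hnear⟩, hε'⟩ :=
    ((Brs.near_pt h hz2 h0 (hin z₀ hz₀) hs).and (self_mem_nhdsWithin (s := Ioi (0 : ℝ)))).exists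
  have hε'0 : 0 < ε' := hε'
  have hmap : ∀ w ∈ ball (0 : ℂ) 2, z₀ + (s : ℂ) * w ∈ ball (0 : ℂ) 2 ∧ z₀ + (s : ℂ) * w ≠ 0 := by
    intro w hw
    rw [mem_ball_zero_iff] at hw
    have h1 : ‖(s : ℂ) * w‖ < ‖z₀‖ := by
      rw [norm_mul, Complex.norm_real, Real.norm_eq_abs, abs_of_pos hs]
      nlinarith [norm_nonneg w]
    constructor
    · rw [mem_ball_zero_iff]
      linarith [norm_add_le z₀ ((s : ℂ) * w)]
    · intro h2
      have h3 : z₀ = -((s : ℂ) * w) := eq_neg_of_add_eq_zero_left h2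
      rw [h3, norm_neg] at h1
      exact lt_irrefl _ h1
  have hder : ∀ w ∈ ball (0 : ℂ) 2, HasFDerivAt (fun w => u l (z₀ + (s : ℂ) * w))
      ((fderiv ℝ (u l) (z₀ + (s : ℂ) * w)).comp (s • ContinuousLinearMap.id ℝ ℂ)) w := by
    intro w hw
    have h1 : HasFDerivAt (fun w : ℂ => z₀ + (s : ℂ) * w) (s • ContinuousLinearMap.id ℝ ℂ) w := by
      have h2 : HasFDerivAt (fun w : ℂ => s • w) (s • ContinuousLinearMap.id ℝ ℂ) w :=
        (hasFDerivAt_id w).const_smul s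
      have h3 := h2.const_add z₀
      refine h3.congr_of_eventuallyEq (Eventually.of_forall fun w => ?_)
      show z₀ + (s : ℂ) * w = z₀ + s • w
      rw [Complex.real_smul]
    have h2 : HasFDerivAt (u l) (fderiv ℝ (u l) (z₀ + (s : ℂ) * w)) (z₀ + (s : ℂ) * w) :=
      ((Brs.contAt h l (hmap w hw).1).differentiableAt (by simp)).hasFDerivAt
    exact h2.comp w h1
  have hd : ∀ w ∈ ball (0 : ℂ) 2, ∀ ζ, fderiv ℝ (fun w => u l (z₀ + (s : ℂ) * w)) w ζ =
      s • fderiv ℝ (u l) (z₀ + (s : ℂ) * w) ζ := by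
    intro w hw ζ
    rw [(hder w hw).fderiv]
    show fderiv ℝ (u l) (z₀ + (s : ℂ) * w) (s • ζ) = _
    rw [map_smul]
  refine ⟨ε', ⟨one_pos, hε'0, fun _ => ⟨?_, ?_⟩, fun _ => by simp, ?_, ?_, ?_, ?_, ?_⟩⟩
  · have h1 : ContDiffOn ℝ ∞ (fun w : ℂ => z₀ + (s : ℂ) * w) (ball 0 2) :=
      (contDiff_const.add (contDiff_const.mul contDiff_id)).contDiffOn
    exact (h.disc l).smooth.comp h1 fun w hw => (hmap w hw).1
  · intro w hw
    rw [hd w hw, hd w hw, map_smul, (h.disc l).hol _ (hmap w hw).1]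
  · intro _ w hw _
    rw [hd w hw]
    exact smul_ne_zero hs.ne' (h.imm l _ (hmap w hw).1 (hmap w hw).2)
  · intro a b w hw w' hw' heq
    left
    refine ⟨Subsingleton.elim _ _, ?_⟩
    have hsne : (s : ℂ) ≠ 0 := by exact_mod_cast hs.ne'
    rcases h.inj l l _ (hmap w hw).1 _ (hmap w' hw').1 heq with h2 | h2
    · exact mul_left_cancel₀ hsne (add_left_cancel h2.2)
    · exact absurd h2.1 (hmap w hw).2
  · intro _ w hw hw1
    by_contra hn
    rw [not_le] at hn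
    have h2 := (hnear l _ (hmap w hw).1 hn).2
    rw [mem_ball, dist_eq_norm, add_sub_cancel_left, norm_mul, Complex.norm_real,
      Real.norm_eq_abs, abs_of_pos hs] at h2
    nlinarith
  · intro _ w hw
    exact h.mem l _ (hmap w hw).1
  · intro y hy hyK
    obtain ⟨l', z, hz, hzy⟩ := h.cov y (hsub hy) hyK
    have h12 : ball (0 : ℂ) 1 ⊆ ball 0 2 := ball_subset_ball (by norm_num)
    obtain ⟨hl, hzδ⟩ := hnear l' z (h12 hz) (by rw [hzy]; exact hy)
    subst hl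
    have hsne : (s : ℂ) ≠ 0 := by exact_mod_cast hs.ne'
    refine ⟨0, (z - z₀) / s, ?_, ?_⟩
    · rw [mem_ball_zero_iff, norm_div, Complex.norm_real, Real.norm_eq_abs, abs_of_pos hs,
        div_lt_one hs]
      rw [mem_ball, dist_eq_norm] at hzδ
      exact hzδ
    · rw [mul_div_cancel₀ _ hsne, add_sub_cancel, hzy]

end Vale.Agent.P247.H821
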