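import Vale.Agent.P247.H710.CurA

/-!
# P247, HODGE: closed invariant functionals on test forms
-/

open scoped ContDiff Topology
open Set MeasureTheory Filter Metric

noncomputable section

namespace Vale.Agent.P247.H821

open Vale.Agent.P247.H74 Vale.Agent.P247.H574 Vale.Agent.P247.H710

attribute [local instance] f2G f2S f1G f1S

/-- a functional with the formal properties of a closed invariant current -/
structure Fnl (T : (R4 → F2) → ℝ) : Prop where
  add : ∀ φ ψ, CF φ → CF ψ → T (φ + ψ) = T φ + T ψ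
  smul : ∀ (c : ℝ) φ, CF φ → T (c • φ) = c * T φ
  per : ∀ φ, CF φ → ∀ k : Fin 4 → ℤ, T (fun x => φ (tr k x)) = T φ
  closed : ∀ l : R4 → R4 →L[ℝ] ℝ, ContDiff ℝ ∞ l → HasCompactSupport l → T (dd l) = 0

variable {T : (R4 → F2) → ℝ} (S : Fnl T)
include S

theorem Fn_zero : T (fun _ => 0) = 0 := by
  have h := S.smul 0 (fun _ => (0 : F2)) CF.zero
  rw [zero_mul] at h
  rw [← h]
  congr 1
  funext x
  exact (smul_zero (0 : ℝ)).symm

theorem Fn_add {φ ψ : R4 → F2} (h1 : CF φ) (h2 : CF ψ) :
    T (fun x => φ x + ψ x) = T φ + T ψ := S.add φ ψ h1 h2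

theorem Fn_smul (c : ℝ) {φ : R4 → F2} (h1 : CF φ) : T (fun x => c • φ x) = c * T φ :=
  S.smul c φ h1

theorem Fn_neg {φ : R4 → F2} (h1 : CF φ) : T (fun x => - φ x) = - T φ := by
  have h := Fn_smul S (-1) h1
  rw [neg_one_mul] at h
  rw [← h]
  congr 1
  funext x
  exact (neg_one_smul ℝ (φ x)).symm

theorem Fn_sub {φ ψ : R4 → F2} (h1 : CF φ) (h2 : CF ψ) :
    T (fun x => φ x - ψ x) = T φ - T ψ := by
  have h3 : CF (fun x => - ψ x) := by
    have h4 := CF.smul (-1) h2
    convert h4 using 1
    funext x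
    exact (neg_one_smul ℝ (ψ x)).symm
  have h := Fn_add S h1 h3
  rw [Fn_neg S h2] at h
  rw [sub_eq_add_neg, ← h]
  exact congrArg T (funext fun x => sub_eq_add_neg (φ x) (ψ x))

theorem Fn_sum {ι : Type*} (s : Finset ι) {φ : ι → R4 → F2} (h : ∀ i ∈ s, CF (φ i)) :
    T (fun x => ∑ i ∈ s, φ i x) = ∑ i ∈ s, T (φ i) := by
  classical
  induction s using Finset.induction_on with
  | empty => simpa using Fn_zero S
  | insert a s ha ih =>
    have h1 := Fn_add S (h a (Finset.mem_insert_self a s))
      (CF.sum s fun i hi => h i (Finset.mem_insert_of_mem hi))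
    rw [ih fun i hi => h i (Finset.mem_insert_of_mem hi)] at h1
    rw [Finset.sum_insert ha, ← h1]
    congr 1
    funext x
    rw [Finset.sum_insert ha]

/-- the current vanishes on exact periodic forms -/
theorem Fn_exact {χ : R4 → ℝ} (hχ : IsPU χ) {l : R4 → R4 →L[ℝ] ℝ} (hl : ContDiff ℝ ∞ l)
    (hp : ∀ k x, l (tr k x) = l x) : T (fun x => χ x • dd l x) = 0 := by
  classical
  have hχc : Continuous χ := hχ.smooth.continuous
  have hDχ : Continuous (fderiv ℝ χ) := hχ.smooth.continuous_fderiv (by simp)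
  have hDs : HasCompactSupport (fderiv ℝ χ) := hχ.supp.fderiv ℝ
  -- the form `dχ ∧ l`
  have hW : CF (fun x => wg (fderiv ℝ χ x) (l x)) := by
    refine ⟨wg_continuous hDχ hl.continuous, ?_, fun x u => wg_self _ _ _⟩
    refine hDs.mono ?_
    intro x hx hx0
    apply hx
    have : fderiv ℝ χ x = 0 := hx0
    ext u v
    show wg (fderiv ℝ χ x) (l x) u v = 0
    rw [this, wg_apply]
    simp
  have hd : CF (fun x => χ x • dd l x) :=
    CF.fmul hχc hχ.supp (continuous_flip_fderiv hl) (dd_self l)
  have e0 : T (dd fun x => χ x • l x) = 0 :=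
    S.closed _ (hχ.smooth.smul hl) (hχ.supp.smul_right)
  have e1 : (dd fun x => χ x • l x) = fun x => χ x • dd l x + wg (fderiv ℝ χ x) (l x) := by
    funext x
    exact dd_smul hχ.smooth hl x
  rw [e1, Fn_add S hd hW] at e0
  suffices hz : T (fun x => wg (fderiv ℝ χ x) (l x)) = 0 by linarith
  -- the window
  have hK : Bornology.IsBounded (cthickening 1 (tsupport χ)) :=
    (hχ.supp.isCompact.isBounded).cthickening
  obtain ⟨s, hs1, hs2⟩ := exists_window _ hK
  have hsub : tsupport χ ⊆ cthickening 1 (tsupport χ) := self_subset_cthickening _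
  have hsum : ∀ x ∈ cthickening 1 (tsupport χ), ∑ k ∈ s, χ (tr k x) = 1 := by
    intro x hx
    rw [← hχ.sum x]
    symm
    apply tsum_eq_sum
    intro k hk
    by_contra hne
    exact hk (hs2 k x hx (hsub (subset_tsupport _ hne)))
  have hterm : ∀ k, CF (fun x => χ (tr k x) • wg (fderiv ℝ χ x) (l x)) := fun k =>
    CF.fmul' (hχc.comp (tr_continuous k)) hW
  have e2 : (fun x => wg (fderiv ℝ χ x) (l x)) =
      fun x => ∑ k ∈ s, χ (tr k x) • wg (fderiv ℝ χ x) (l x) := by
    funext x
    rw [← Finset.sum_smul]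
    by_cases hx : x ∈ tsupport χ
    · rw [hsum x (hsub hx), one_smul]
    · have : fderiv ℝ χ x = 0 := by
        by_contra hne
        exact hx (support_fderiv_subset ℝ hne)
      have h0 : wg (fderiv ℝ χ x) (l x) = 0 := by
        rw [this]; ext u v; show (0 : ℝ) * _ - _ * 0 = 0; ring
      rw [h0, smul_zero]
  rw [e2, Fn_sum S s fun k _ => hterm k]
  -- move the translation
  have e3 : ∀ k, T (fun x => χ (tr k x) • wg (fderiv ℝ χ x) (l x)) =
      T (fun x => χ x • wg (fderiv ℝ (fun y => χ (tr (-k) y)) x) (l x)) := by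
    intro k
    have h1 := S.per _ (hterm k) (-k)
    rw [← h1]
    congr 1
    funext x
    have h2 : fderiv ℝ (fun y => χ (tr (-k) y)) x = fderiv ℝ χ (tr (-k) x) := by
      have := fderiv_comp x (hχ.smooth.differentiable (by simp) (tr (-k) x))
        ((tr_contDiff (-k)).differentiable (by simp) x)
      rw [fderiv_tr] at this
      exact this
    rw [h2, tr_neg_cancel, hp]
  have hterm2 : ∀ k, CF (fun x => χ x • wg (fderiv ℝ (fun y => χ (tr (-k) y)) x) (l x)) := by
    intro k
    apply CF.fmul hχc hχ.supp _ (fun x u => wg_self _ _ _)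
    refine wg_continuous ?_ hl.continuous
    exact (hχ.smooth.comp (tr_contDiff (-k))).continuous_fderiv (by simp)
  rw [Finset.sum_congr rfl fun k _ => e3 k, ← Fn_sum S s fun k _ => hterm2 k]
  have e4 : (fun x => ∑ k ∈ s, χ x • wg (fderiv ℝ (fun y => χ (tr (-k) y)) x) (l x)) =
      fun _ => 0 := by
    funext x
    by_cases hx : x ∈ tsupport χ
    · -- the sum of the translates is one near `x`
      have hnear : (fun y => ∑ k ∈ s, χ (tr (-k) y)) =ᶠ[𝓝 x] fun _ => 1 := by
        have : ball x 1 ∈ 𝓝 x := ball_mem_nhds x one_pos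
        filter_upwards [this] with y hy
        have hy' : y ∈ cthickening 1 (tsupport χ) := by
          apply thickening_subset_cthickening
          rw [mem_thickening_iff]
          exact ⟨x, hx, hy⟩
        rw [← hsum y hy']
        refine Finset.sum_bij' (fun k _ => -k) (fun k _ => -k) ?_ ?_ ?_ ?_ ?_
        · intro k hk; exact (hs1 k).1 hk
        · intro k hk; exact (hs1 k).1 hk
        · intro k _; exact neg_neg k
        · intro k _; exact neg_neg k
        · intro k _; rfl
      have hfd : fderiv ℝ (fun y => ∑ k ∈ s, χ (tr (-k) y)) x = 0 := by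
        rw [hnear.fderiv_eq]; exact fderiv_const_apply _
      have hfs : fderiv ℝ (fun y => ∑ k ∈ s, χ (tr (-k) y)) x =
          ∑ k ∈ s, fderiv ℝ (fun y => χ (tr (-k) y)) x := by
        apply fderiv_fun_sum
        intro k _
        exact (hχ.smooth.comp (tr_contDiff (-k))).differentiable (by simp) x
      rw [← Finset.smul_sum]
      have : ∑ k ∈ s, wg (fderiv ℝ (fun y => χ (tr (-k) y)) x) (l x) = 0 := by
        ext u v
        have e5 : ∀ a : R4, ∑ k ∈ s, fderiv ℝ (fun y => χ (tr (-k) y)) x a = 0 := by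
          intro a
          rw [← sum_apply, ← hfs, hfd]; rfl
        rw [sum_apply, sum_apply]
        simp only [wg_apply]
        rw [Finset.sum_sub_distrib, ← Finset.sum_mul, ← Finset.mul_sum, e5, e5]
        simp
      rw [this, smul_zero]
    · have : χ x = 0 := by
        by_contra hne
        exact hx (subset_tsupport _ hne)
      simp [this]
  rw [e4, Fn_zero S]


end Vale.Agent.P247.H821
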