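import Vale.Agent.P247.H821.BrsLem
import Vale.Agent.P247.H821.Fnl

/-!
# P247, HODGE: energies on the local discs, the set where they tend to zero
-/

open scoped ContDiff Topology
open Set MeasureTheory Filter Metric

noncomputable section

namespace Vale.Agent.P247.H821

open Vale.Agent.P247.H74 Vale.Agent.P247.H574 Vale.Agent.P247.H710 Vale.Agent.P247.H690.HD

attribute [local instance] f2G f2S f1G f1S

/-! ## the energy form -/

theorem bf_eq_wg (D : Data) (x : R4) (a c : R4 →L[ℝ] ℝ) : bf D x a c = wg (a.comp (D.J x)) c := rfl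

theorem qf_self (D : Data) (x : R4) (a : R4 →L[ℝ] ℝ) (u : R4) : qf D x a u u = 0 := by
  show bf D x a a u u = 0
  rw [bf_eq_wg, wg_self]

theorem qf_J (D : Data) (x : R4) (a : R4 →L[ℝ] ℝ) (u : R4) :
    qf D x a u (D.J x u) = a u ^ 2 + a (D.J x u) ^ 2 := by
  show bf D x a a u (D.J x u) = _
  rw [bf_apply, D.J_sq, map_neg]
  ring

theorem qf_continuous (D : Data) {a : R4 → R4 →L[ℝ] ℝ} (ha : Continuous a) :
    Continuous fun x => qf D x (a x) := by
  have h1 : Continuous fun x => (a x).comp (D.J x) :=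
    ha.clm_comp D.J_smooth.continuous
  exact wg_continuous h1 ha

theorem qf_cf (D : Data) {a : R4 → R4 →L[ℝ] ℝ} (ha : Continuous a) {f : R4 → ℝ}
    (hf : Continuous f) (hs : HasCompactSupport f) : CF (fun x => f x • qf D x (a x)) :=
  CF.fmul hf hs (qf_continuous D ha) fun x u => qf_self D x (a x) u

theorem tsupp_sub {f : R4 → ℝ} {φ : R4 → F2} : tsupport (fun x => f x • φ x) ⊆ tsupport f := by
  apply closure_mono
  intro x hx hx0
  apply hx
  show f x • φ x = 0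
  rw [hx0, zero_smul]

theorem cont_fderiv {F : R4 → ℝ} (hF : ContDiff ℝ ∞ F) : Continuous (fderiv ℝ F) :=
  hF.continuous_fderiv (by simp)

theorem dz_normSq (g : ℂ → ℝ) (z : ℂ) :
    4 * ‖dz g z‖ ^ 2 = fderiv ℝ g z 1 ^ 2 + fderiv ℝ g z Complex.I ^ 2 := by
  have h : dz g z = ⟨fderiv ℝ g z 1 / 2, -(fderiv ℝ g z Complex.I) / 2⟩ := by
    unfold dz
    apply Complex.ext <;> simp
  rw [h, ← Complex.normSq_eq_norm_sq, Complex.normSq_mk]
  ring

section disc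

variable {D : Data} {u : ℂ → R4}

theorem fderiv_comp_disc (hu : JDisc D u) {z : ℂ} (hz : z ∈ ball (0 : ℂ) 2) {F : R4 → ℝ}
    (hF : ContDiff ℝ ∞ F) (ζ : ℂ) :
    fderiv ℝ (F ∘ u) z ζ = fderiv ℝ F (u z) (fderiv ℝ u z ζ) := by
  have h1 : DifferentiableAt ℝ u z :=
    (hu.smooth.contDiffAt (isOpen_ball.mem_nhds hz)).differentiableAt (by simp)
  rw [fderiv_comp z (hF.differentiable (by simp) (u z)) h1]
  rfl

theorem qf_disc (hu : JDisc D u) {z : ℂ} (hz : z ∈ ball (0 : ℂ) 2) {F : R4 → ℝ}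
    (hF : ContDiff ℝ ∞ F) :
    qf D (u z) (fderiv ℝ F (u z)) (fderiv ℝ u z 1) (fderiv ℝ u z Complex.I) =
      4 * ‖dz (F ∘ u) z‖ ^ 2 := by
  rw [dz_normSq, fderiv_comp_disc hu hz hF, fderiv_comp_disc hu hz hF, hu.hol z hz, qf_J]

theorem dz_contOn (hu : ContDiffOn ℝ ∞ u (ball 0 2)) {F : R4 → ℝ} (hF : ContDiff ℝ ∞ F) :
    ContinuousOn (dz (F ∘ u)) (ball 0 2) := by
  have h1 : ContDiffOn ℝ ∞ (F ∘ u) (ball 0 2) := hF.comp_contDiffOn hu
  have h2 : ContinuousOn (fderiv ℝ (F ∘ u)) (ball 0 2) :=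
    h1.continuousOn_fderiv_of_isOpen isOpen_ball (by simp)
  have h3 : ∀ v : ℂ, ContinuousOn (fun z => ((fderiv ℝ (F ∘ u) z v : ℝ) : ℂ)) (ball 0 2) :=
    fun v => Complex.continuous_ofReal.comp_continuousOn (h2.clm_apply continuousOn_const)
  unfold dz
  exact ((h3 1).sub (continuousOn_const.mul (h3 Complex.I))).div_const 2

theorem int_of_cont {g : ℂ → ℝ} (hg : ContinuousOn g (ball 0 2)) : IntegrableOn g (ball 0 1) :=
  ((hg.mono cball_sub).integrableOn_compact (isCompact_closedBall 0 1)).mono_set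
    ball_subset_closedBall

theorem fu_cont (hu : ContDiffOn ℝ ∞ u (ball 0 2)) {f : R4 → ℝ} (hf : Continuous f) :
    ContinuousOn (fun z => f (u z)) (ball 0 2) := hf.comp_continuousOn hu.continuousOn

theorem en_cont (hu : ContDiffOn ℝ ∞ u (ball 0 2)) {f : R4 → ℝ} (hf : Continuous f) {F : R4 → ℝ}
    (hF : ContDiff ℝ ∞ F) :
    ContinuousOn (fun z => f (u z) * (4 * ‖dz (F ∘ u) z‖ ^ 2)) (ball 0 2) :=
  (fu_cont hu hf).mul (continuousOn_const.mul ((dz_contOn hu hF).norm.pow 2))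

end disc

variable {D : Data} {S : ICur D}

/-- energies near `x` -/
theorem en_local {x : R4} {N : ℕ} {u : Fin N → ℂ → R4} {k : Fin N → ℕ} {ε : ℝ}
    (h : LS1 S x N u k ε) {f : R4 → ℝ} (hf : Continuous f) (hs : HasCompactSupport f)
    (hsub : tsupport f ⊆ ball x ε) {F : R4 → ℝ} (hF : ContDiff ℝ ∞ F) :
    S.T (fun x => f x • qf D x (fderiv ℝ F x)) = ∑ l, (k l : ℝ) *
      ∫ z in ball (0 : ℂ) 1, f (u l z) * (4 * ‖dz (F ∘ u l) z‖ ^ 2) := by
  rw [h.val _ (qf_cf D (cont_fderiv hF) hf hs) (tsupp_sub.trans hsub)]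
  refine Finset.sum_congr rfl fun l _ => ?_
  congr 1
  unfold brI
  refine setIntegral_congr_fun measurableSet_ball fun z hz => ?_
  have hz2 : z ∈ ball (0 : ℂ) 2 := ball_subset_ball (by norm_num) hz
  show f (u l z) * qf D (u l z) (fderiv ℝ F (u l z)) (fderiv ℝ (u l) z 1)
    (fderiv ℝ (u l) z Complex.I) = _
  rw [qf_disc (h.brs.disc l) hz2 hF]

variable (S) (F : Fin 4 → ℕ → R4 → ℝ)

/-- energies -/
def en1 (f : R4 → ℝ) (j : Fin 4) (n : ℕ) : ℝ := S.T (fun x => f x • qf D x (fderiv ℝ (F j n) x))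

/-- the points near which all energies tend to zero -/
def ZZ : Set R4 := {y | y ∈ S.supp ∧ ∃ ε > 0, ∀ f : R4 → ℝ, Continuous f → HasCompactSupport f →
  (∀ x, 0 ≤ f x) → tsupport f ⊆ ball y ε → ∀ j, Tendsto (en1 S F f j) atTop (𝓝 0)}

variable {S F}

theorem ZZ_open {y : R4} (hy : y ∈ ZZ S F) : ∃ ρ > 0, ∀ y' ∈ S.supp, y' ∈ ball y ρ →
    y' ∈ ZZ S F := by
  obtain ⟨h1, ε, hε, h2⟩ := hy
  refine ⟨ε / 2, by positivity, fun y' hy' hb => ⟨hy', ε / 2, by positivity, ?_⟩⟩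
  intro f hf hs hp hsub j
  refine h2 f hf hs hp (hsub.trans ?_) j
  apply ball_subset_ball'
  rw [mem_ball] at hb
  linarith

/-- points on a branch with vanishing limits -/
theorem mem_ZZ_of_zero {x : R4} {N : ℕ} {u : Fin N → ℂ → R4} {k : Fin N → ℕ} {ε : ℝ}
    (h : LS1 S x N u k ε) (hM : ∀ j n, ContDiff ℝ ∞ (F j n)) {l : Fin N} {r : ℝ} (hr1 : r ≤ 1)
    {hh : Fin 4 → ℂ → ℂ} (hL : ∀ j, Lim (F j) (u l) r (hh j))
    (h0 : ∀ j, ∀ z ∈ ball (0 : ℂ) r, hh j z = 0) {z₀ : ℂ} (hz₀ : z₀ ∈ ball (0 : ℂ) r)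
    (hne : z₀ ≠ 0) (hx : u l z₀ ∈ ball x ε) : u l z₀ ∈ ZZ S F := by
  have h12 : ball (0 : ℂ) 1 ⊆ ball 0 2 := ball_subset_ball (by norm_num)
  have hr2 : ball (0 : ℂ) r ⊆ ball 0 1 := ball_subset_ball hr1
  have hδ : 0 < r - ‖z₀‖ := by
    rw [mem_ball_zero_iff] at hz₀
    linarith
  have hzδ : ball z₀ (r - ‖z₀‖) ⊆ ball 0 r := by
    apply ball_subset_ball'
    rw [dist_zero_right]
    linarith
  obtain ⟨ε₁, ⟨hsub₁, hnear⟩, hε₁⟩ := ((Brs.near_pt h.brs (h12 (hr2 hz₀)) hne hx hδ).and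
    (self_mem_nhdsWithin (s := Ioi (0 : ℝ)))).exists
  refine ⟨h.brs.mem l _ (h12 (hr2 hz₀)), ε₁, hε₁, fun f hf hs hp hsub j => ?_⟩
  obtain ⟨M, hM'⟩ := hs.exists_bound_of_continuous hf
  have hfM : ∀ y, f y ≤ M := fun y => (le_abs_self _).trans (hM' y)
  have hf0 : ∀ y, y ∉ ball (u l z₀) ε₁ → f y = 0 := fun y hy =>
    image_eq_zero_of_notMem_tsupport fun h => hy (hsub h)
  have hform : ∀ n, en1 S F f j n = (k l : ℝ) *
      ∫ z in ball (0 : ℂ) 1, f (u l z) * (4 * ‖dz (F j n ∘ u l) z‖ ^ 2) := by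
    intro n
    unfold en1
    rw [en_local h hf hs (hsub.trans hsub₁) (hM j n)]
    apply Finset.sum_eq_single l
    · intro l' _ hl'
      have : ∫ z in ball (0 : ℂ) 1, f (u l' z) * (4 * ‖dz (F j n ∘ u l') z‖ ^ 2) = 0 := by
        apply setIntegral_eq_zero_of_forall_eq_zero
        intro z hz
        rw [hf0, zero_mul]
        intro hzb
        exact hl' (hnear l' z (h12 hz) hzb).1
      rw [this, mul_zero]
    · intro h; exact absurd (Finset.mem_univ l) h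
  have hup : ∀ n, en1 S F f j n ≤ (k l : ℝ) * (M * 4 *
      ∫ z in ball (0 : ℂ) r, ‖dz (F j n ∘ u l) z - hh j z‖ ^ 2) := by
    intro n
    rw [hform n]
    apply mul_le_mul_of_nonneg_left _ (Nat.cast_nonneg _)
    have hint : IntegrableOn (fun z => f (u l z) * (4 * ‖dz (F j n ∘ u l) z‖ ^ 2)) (ball 0 1) :=
      int_of_cont (en_cont (h.brs.disc l).smooth hf (hM j n))
    have e1 : ∫ z in ball (0 : ℂ) 1, f (u l z) * (4 * ‖dz (F j n ∘ u l) z‖ ^ 2) =
        ∫ z in ball (0 : ℂ) r, f (u l z) * (4 * ‖dz (F j n ∘ u l) z‖ ^ 2) := by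
      apply setIntegral_eq_of_subset_of_forall_sdiff_eq_zero measurableSet_ball hr2
      rintro z ⟨hz, hzr⟩
      rw [hf0, zero_mul]
      intro hzb
      exact hzr (hzδ (hnear l z (h12 hz) hzb).2)
    have e2 : M * 4 * ∫ z in ball (0 : ℂ) r, ‖dz (F j n ∘ u l) z - hh j z‖ ^ 2 =
        ∫ z in ball (0 : ℂ) r, M * (4 * ‖dz (F j n ∘ u l) z‖ ^ 2) := by
      rw [← integral_const_mul]
      refine setIntegral_congr_fun measurableSet_ball fun z hz => ?_
      rw [h0 j z hz, sub_zero]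
      ring
    rw [e1, e2]
    apply setIntegral_mono_on (hint.mono_set hr2) _ measurableSet_ball
    · intro z _
      exact mul_le_mul_of_nonneg_right (hfM _) (by positivity)
    · refine IntegrableOn.mono_set ?_ hr2
      exact int_of_cont (continuousOn_const.mul (continuousOn_const.mul
        ((dz_contOn (h.brs.disc l).smooth (hM j n)).norm.pow 2)))
  have hlow : ∀ n, 0 ≤ en1 S F f j n := by
    intro n
    rw [hform n]
    apply mul_nonneg (Nat.cast_nonneg _)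
    apply integral_nonneg
    intro z
    exact mul_nonneg (hp _) (by positivity)
  have hlim : Tendsto (fun n => (k l : ℝ) * (M * 4 *
      ∫ z in ball (0 : ℂ) r, ‖dz (F j n ∘ u l) z - hh j z‖ ^ 2)) atTop (𝓝 0) := by
    have := ((hL j).lim.const_mul (M * 4)).const_mul (k l : ℝ)
    simpa using this
  exact squeeze_zero hlow hup hlim

/-- limits vanish on a branch through a point of `ZZ` -/
theorem zero_of_mem_ZZ {x : R4} {N : ℕ} {u : Fin N → ℂ → R4} {k : Fin N → ℕ} {ε : ℝ}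
    (h : LS1 S x N u k ε) (hM : ∀ j n, ContDiff ℝ ∞ (F j n)) {l : Fin N} {r : ℝ} (hr1 : r ≤ 1)
    {hh : Fin 4 → ℂ → ℂ} (hL : ∀ j, Lim (F j) (u l) r (hh j))
    {z₀ : ℂ} (hz₀ : z₀ ∈ ball (0 : ℂ) r) (hne : z₀ ≠ 0) (hx : u l z₀ ∈ ball x ε)
    (hZ : u l z₀ ∈ ZZ S F) : ∀ j, ∀ z ∈ ball (0 : ℂ) r, hh j z = 0 := by
  have h12 : ball (0 : ℂ) 1 ⊆ ball 0 2 := ball_subset_ball (by norm_num)
  have hr2 : ball (0 : ℂ) r ⊆ ball 0 1 := ball_subset_ball hr1
  obtain ⟨_, ε₂, hε₂, hZ2⟩ := hZ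
  obtain ⟨ε₁, ⟨hsub₁, hnear⟩, hε₁⟩ := ((Brs.near_pt h.brs (h12 (hr2 hz₀)) hne hx one_pos).and
    (self_mem_nhdsWithin (s := Ioi (0 : ℝ)))).exists
  have hε₁' : 0 < ε₁ := hε₁
  set ρ : ℝ := min ε₁ ε₂ with hρ
  have hρ0 : 0 < ρ := lt_min hε₁' hε₂
  let φ : ContDiffBump (u l z₀) := ⟨ρ / 4, ρ / 2, by positivity, by linarith⟩
  have hf : Continuous φ := φ.continuous
  have hs : HasCompactSupport φ := φ.hasCompactSupport
  have hp : ∀ y, 0 ≤ φ y := fun y => φ.nonneg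
  have hts : tsupport φ ⊆ ball (u l z₀) ρ := by
    rw [φ.tsupport_eq]
    exact closedBall_subset_ball (show ρ / 2 < ρ by linarith)
  have hts1 : tsupport φ ⊆ ball x ε := (hts.trans (ball_subset_ball (min_le_left _ _))).trans hsub₁
  have hts2 : tsupport φ ⊆ ball (u l z₀) ε₂ := hts.trans (ball_subset_ball (min_le_right _ _))
  -- a small disc
  have hc : ContinuousAt (u l) z₀ :=
    (Brs.contAt h.brs l (h12 (hr2 hz₀))).continuousAt
  have h3 : ∀ᶠ z in 𝓝 z₀, u l z ∈ ball (u l z₀) (ρ / 4) ∧ z ∈ ball (0 : ℂ) r :=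
    (hc.eventually (ball_mem_nhds _ (by positivity))).and (isOpen_ball.mem_nhds hz₀)
  obtain ⟨δ, hδ, h4⟩ := Metric.eventually_nhds_iff_ball.1 h3
  have hδr : ball z₀ δ ⊆ ball 0 r := fun z hz => (h4 z hz).2
  have hφ1 : ∀ z ∈ ball z₀ δ, φ (u l z) = 1 := fun z hz =>
    φ.one_of_mem_closedBall (ball_subset_closedBall (h4 z hz).1)
  intro j
  have hlow : ∀ n, ∫ z in ball z₀ δ, 4 * ‖dz (F j n ∘ u l) z‖ ^ 2 ≤ en1 S F φ j n := by
    intro n
    unfold en1
    rw [en_local h hf hs hts1 (hM j n)]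
    have hint : ∀ l', IntegrableOn (fun z => φ (u l' z) * (4 * ‖dz (F j n ∘ u l') z‖ ^ 2))
        (ball 0 1) := fun l' => int_of_cont (en_cont (h.brs.disc l').smooth hf (hM j n))
    have hnn : ∀ l' z, 0 ≤ φ (u l' z) * (4 * ‖dz (F j n ∘ u l') z‖ ^ 2) := fun l' z =>
      mul_nonneg (hp _) (by positivity)
    calc ∫ z in ball z₀ δ, 4 * ‖dz (F j n ∘ u l) z‖ ^ 2
        = ∫ z in ball z₀ δ, φ (u l z) * (4 * ‖dz (F j n ∘ u l) z‖ ^ 2) := by
          refine setIntegral_congr_fun measurableSet_ball fun z hz => ?_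
          rw [hφ1 z hz, one_mul]
      _ ≤ ∫ z in ball (0 : ℂ) 1, φ (u l z) * (4 * ‖dz (F j n ∘ u l) z‖ ^ 2) :=
          setIntegral_mono_set (hint l) (ae_of_all _ (hnn l))
            (Eventually.of_forall fun z hz => (hδr.trans hr2) hz)
      _ ≤ (k l : ℝ) * ∫ z in ball (0 : ℂ) 1, φ (u l z) * (4 * ‖dz (F j n ∘ u l) z‖ ^ 2) := by
          have h5 : (1 : ℝ) ≤ k l := by exact_mod_cast h.one l
          have h6 : 0 ≤ ∫ z in ball (0 : ℂ) 1, φ (u l z) * (4 * ‖dz (F j n ∘ u l) z‖ ^ 2) :=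
            integral_nonneg (hnn l)
          nlinarith
      _ ≤ _ := by
          apply Finset.single_le_sum (f := fun l' => (k l' : ℝ) *
            ∫ z in ball (0 : ℂ) 1, φ (u l' z) * (4 * ‖dz (F j n ∘ u l') z‖ ^ 2)) _
            (Finset.mem_univ l)
          intro l' _
          exact mul_nonneg (Nat.cast_nonneg _) (integral_nonneg (hnn l'))
  have hlim1 : Tendsto (en1 S F φ j) atTop (𝓝 0) := hZ2 φ hf hs hp hts2 j
  have hhol := (hL j).hol
  have hcont : ContinuousOn (hh j) (ball 0 r) := hhol.continuousOn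
  have hdzi : ∀ n, IntegrableOn (fun z => 4 * ‖dz (F j n ∘ u l) z‖ ^ 2) (ball 0 1) := fun n =>
    int_of_cont (continuousOn_const.mul
      ((dz_contOn (h.brs.disc l).smooth (hM j n)).norm.pow 2))
  have hdiff : ∀ n, IntegrableOn (fun z => ‖dz (F j n ∘ u l) z - hh j z‖ ^ 2) (ball 0 r) := by
    intro n
    have hd1 : IntegrableOn (fun z => ‖dz (F j n ∘ u l) z‖ ^ 2) (ball 0 r) := by
      refine IntegrableOn.mono_set ?_ hr2
      exact int_of_cont ((dz_contOn (h.brs.disc l).smooth (hM j n)).norm.pow 2)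
    refine Integrable.mono' ((hd1.const_mul 2).add ((hL j).int.const_mul 2)) ?_ ?_
    · have h5 : ContinuousOn (fun z => ‖dz (F j n ∘ u l) z - hh j z‖ ^ 2) (ball 0 r) :=
        (((dz_contOn (h.brs.disc l).smooth (hM j n)).mono (hr2.trans h12)).sub hcont).norm.pow 2
      exact h5.aestronglyMeasurable measurableSet_ball
    · refine ae_of_all _ fun z => ?_
      rw [Real.norm_eq_abs, abs_of_nonneg (by positivity)]
      have h6 := norm_sub_le (dz (F j n ∘ u l) z) (hh j z)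
      have h7 : ‖dz (F j n ∘ u l) z - hh j z‖ ^ 2 ≤
          (‖dz (F j n ∘ u l) z‖ + ‖hh j z‖) ^ 2 := by gcongr
      show _ ≤ 2 * ‖dz (F j n ∘ u l) z‖ ^ 2 + 2 * ‖hh j z‖ ^ 2
      nlinarith [sq_nonneg (‖dz (F j n ∘ u l) z‖ - ‖hh j z‖)]
  have hle : ∀ n, ∫ z in ball z₀ δ, ‖hh j z‖ ^ 2 ≤ en1 S F φ j n +
      2 * ∫ z in ball (0 : ℂ) r, ‖dz (F j n ∘ u l) z - hh j z‖ ^ 2 := by
    intro n
    have h5 : ∫ z in ball z₀ δ, ‖hh j z‖ ^ 2 ≤ ∫ z in ball z₀ δ,
        (4 * ‖dz (F j n ∘ u l) z‖ ^ 2 + 2 * ‖dz (F j n ∘ u l) z - hh j z‖ ^ 2) := by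
      apply setIntegral_mono_on ((hL j).int.mono_set hδr) _ measurableSet_ball
      · intro z _
        have h6 : hh j z = dz (F j n ∘ u l) z - (dz (F j n ∘ u l) z - hh j z) := by ring
        have h7 := norm_sub_le (dz (F j n ∘ u l) z) (dz (F j n ∘ u l) z - hh j z)
        rw [← h6] at h7
        have h8 : ‖hh j z‖ ^ 2 ≤
            (‖dz (F j n ∘ u l) z‖ + ‖dz (F j n ∘ u l) z - hh j z‖) ^ 2 := by gcongr
        nlinarith [sq_nonneg (‖dz (F j n ∘ u l) z‖ - ‖dz (F j n ∘ u l) z - hh j z‖),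
          sq_nonneg (‖dz (F j n ∘ u l) z‖)]
      · exact ((hdzi n).mono_set (hδr.trans hr2)).add (((hdiff n).mono_set hδr).const_mul 2)
    have h9 : ∫ z in ball z₀ δ,
        (4 * ‖dz (F j n ∘ u l) z‖ ^ 2 + 2 * ‖dz (F j n ∘ u l) z - hh j z‖ ^ 2) =
        (∫ z in ball z₀ δ, 4 * ‖dz (F j n ∘ u l) z‖ ^ 2) +
        2 * ∫ z in ball z₀ δ, ‖dz (F j n ∘ u l) z - hh j z‖ ^ 2 := by
      rw [integral_add ((hdzi n).mono_set (hδr.trans hr2))
        (((hdiff n).mono_set hδr).const_mul 2), integral_const_mul 2]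
    have h10 : ∫ z in ball z₀ δ, ‖dz (F j n ∘ u l) z - hh j z‖ ^ 2 ≤
        ∫ z in ball (0 : ℂ) r, ‖dz (F j n ∘ u l) z - hh j z‖ ^ 2 :=
      setIntegral_mono_set (hdiff n) (ae_of_all _ fun z => by positivity)
        (Eventually.of_forall fun z hz => hδr hz)
    linarith [hlow n]
  have hlim2 : Tendsto (fun n => en1 S F φ j n +
      2 * ∫ z in ball (0 : ℂ) r, ‖dz (F j n ∘ u l) z - hh j z‖ ^ 2) atTop (𝓝 0) := by
    have := hlim1.add ((hL j).lim.const_mul 2)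
    simpa using this
  have hzero : ∫ z in ball z₀ δ, ‖hh j z‖ ^ 2 = 0 := by
    apply le_antisymm (ge_of_tendsto' hlim2 hle)
    exact integral_nonneg fun z => by positivity
  have hae : (fun z => ‖hh j z‖ ^ 2) =ᵐ[volume.restrict (ball z₀ δ)] 0 :=
    (integral_eq_zero_iff_of_nonneg (fun z => by positivity) ((hL j).int.mono_set hδr)).1 hzero
  have heq : EqOn (fun z => ‖hh j z‖ ^ 2) 0 (ball z₀ δ) :=
    Measure.eqOn_open_of_ae_eq hae isOpen_ball ((hcont.mono hδr).norm.pow 2) continuousOn_const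
  have hev : hh j =ᶠ[𝓝 z₀] 0 := by
    filter_upwards [ball_mem_nhds z₀ hδ] with z hz
    have := heq hz
    simpa using this
  exact (hhol.analyticOnNhd isOpen_ball).eqOn_zero_of_preconnected_of_eventuallyEq_zero
    isPreconnected_ball hz₀ hev

end Vale.Agent.P247.H821
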