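import Vale.Agent.P247.H821.TZ

/-!
# P247, HODGE, step H3: the limits do not vanish simultaneously on a branch
-/

open scoped ContDiff Topology ENNReal NNReal
open Set MeasureTheory Filter Metric

noncomputable section

namespace Vale.Agent.P247.H821

open Vale.Agent.P247.H74 Vale.Agent.P247.H574 Vale.Agent.P247.H710 Vale.Agent.P247.H690.HD

attribute [local instance] f2G f2S f1G f1S

variable {D : Data} {S : ICur D} {F : Fin 4 → ℕ → R4 → ℝ}

theorem tsupport_dd (l : R4 → R4 →L[ℝ] ℝ) : tsupport (dd l) ⊆ tsupport l := by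
  apply closure_minimal _ (isClosed_tsupport l)
  intro x hx
  apply support_fderiv_subset ℝ (f := l)
  intro h0
  apply hx
  have h2 : fderiv ℝ l x = 0 := h0
  ext u v
  rw [dd_apply, h2]
  exact sub_zero _

theorem not_supp {x : R4} (hx : x ∉ S.supp) : ∃ ρ > 0, ∀ φ, CF φ → tsupport φ ⊆ ball x ρ →
    S.T φ = 0 := by
  by_contra hn
  push Not at hn
  apply hx
  intro ε hε
  obtain ⟨φ, h1, h2, h3⟩ := hn ε hε
  exact ⟨φ, h1, h2, h3⟩

/-- a radius for every point -/
theorem exists_radius (hM : ∀ j, Mini S j (F j)) (hL : Lims S F) (hS : ∀ x ∈ S.supp, LocStr S x)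
    (x : R4) : ∃ ρ > 0, (∀ φ, CF φ → tsupport φ ⊆ ball x ρ →
      ∃ L, Tendsto (fun n => S.T (fun x => ze S F n x • φ x)) atTop (𝓝 L)) ∧
    (∀ l : R4 → R4 →L[ℝ] ℝ, ContDiff ℝ ∞ l → HasCompactSupport l → tsupport l ⊆ ball x ρ →
      Tendsto (fun n => S.T (fun x => ze S F n x • dd l x)) atTop (𝓝 0)) := by
  by_cases hx : x ∈ S.supp
  · obtain ⟨N, u, k, ε, hb, h1, hv⟩ := hS x hx
    have h : LS1 S x N u k ε := ⟨hb, h1, hv⟩
    obtain ⟨A, ρ, hρ, hρε, -, hlim⟩ := local_lim hM hL hx h
    refine ⟨ρ, hρ, fun φ hφ hsub => ⟨_, hlim φ hφ hsub⟩, fun l hl hs hsub => ?_⟩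
    have h2 := hlim (dd l) (dd_cf hl hs) ((tsupport_dd l).trans hsub)
    convert h2 using 1
    congr 1
    symm
    apply Finset.sum_eq_zero
    intro i _
    rw [brI_dd (hb.disc i).smooth (hb.far i) hl (hsub.trans (ball_subset_ball hρε))]
    simp
  · obtain ⟨ρ, hρ, h0⟩ := not_supp hx
    refine ⟨ρ, hρ, fun φ hφ hsub => ⟨0, ?_⟩, fun l hl hs hsub => ?_⟩
    · have : ∀ n, S.T (fun x => ze S F n x • φ x) = 0 := fun n =>
        h0 _ (ze_cf hφ n) (tsupp_sub'.trans hsub)
      simp_rw [this]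
      exact tendsto_const_nhds
    · have : ∀ n, S.T (fun x => ze S F n x • dd l x) = 0 := fun n =>
        h0 _ (ze_cf (dd_cf hl hs) n) (tsupp_sub'.trans ((tsupport_dd l).trans hsub))
      simp_rw [this]
      exact tendsto_const_nhds

theorem exists_lim (hM : ∀ j, Mini S j (F j)) (hL : Lims S F) (hS : ∀ x ∈ S.supp, LocStr S x)
    {φ : R4 → F2} (hφ : CF φ) :
    ∃ L, Tendsto (fun n => S.T (fun x => ze S F n x • φ x)) atTop (𝓝 L) := by
  choose ρ hρ h1 _ using exists_radius hM hL hS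
  obtain ⟨s, g, hg, hsum⟩ := exists_pu hφ.supp.isCompact ρ fun x _ => hρ x
  have h2 : ∀ y ∈ s, CF (fun x => g y x • φ x) := fun y hy => CF.fmul' (hg y hy).2.1.continuous hφ
  have h3 : ∀ y ∈ s, ∃ L, Tendsto (fun n => S.T (fun x => ze S F n x • (g y x • φ x))) atTop
      (𝓝 L) := fun y hy => h1 y _ (h2 y hy) (tsupp_sub.trans (hg y hy).2.2.2.2)
  choose! L hL' using h3
  refine ⟨∑ y ∈ s, L y, ?_⟩
  have h4 : ∀ n, S.T (fun x => ze S F n x • φ x) =
      ∑ y ∈ s, S.T (fun x => ze S F n x • (g y x • φ x)) := by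
    intro n
    rw [← T_sum S s fun y hy => ze_cf (h2 y hy) n]
    congr 1
    funext x
    by_cases hx : x ∈ tsupport φ
    · have h5 : ∑ y ∈ s, ze S F n x • (g y x • φ x) = ze S F n x • ((∑ y ∈ s, g y x) • φ x) := by
        rw [Finset.sum_smul, Finset.smul_sum]
      rw [h5, hsum x hx, one_smul]
    · rw [image_eq_zero_of_notMem_tsupport hx, smul_zero]
      symm
      apply Finset.sum_eq_zero
      intro y _
      rw [smul_zero, smul_zero]
  simp_rw [h4]
  exact tendsto_finsetSum _ fun y hy => hL' y hy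

theorem lim_dd (hM : ∀ j, Mini S j (F j)) (hL : Lims S F) (hS : ∀ x ∈ S.supp, LocStr S x)
    {l : R4 → R4 →L[ℝ] ℝ} (hl : ContDiff ℝ ∞ l) (hs : HasCompactSupport l) :
    Tendsto (fun n => S.T (fun x => ze S F n x • dd l x)) atTop (𝓝 0) := by
  choose ρ hρ _ h1 using exists_radius hM hL hS
  obtain ⟨s, g, hg, hsum⟩ := exists_pu hs.isCompact ρ fun x _ => hρ x
  have hgl : ∀ y ∈ s, ContDiff ℝ ∞ (fun x => g y x • l x) := fun y hy => (hg y hy).2.1.smul hl
  have hgs : ∀ y ∈ s, HasCompactSupport (fun x => g y x • l x) := fun y hy =>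
    (hg y hy).2.2.1.smul_right
  have hgt : ∀ y ∈ s, tsupport (fun x => g y x • l x) ⊆ ball y (ρ y) := fun y hy => by
    refine Subset.trans ?_ (hg y hy).2.2.2.2
    apply closure_mono
    intro x hx hx0
    apply hx
    show g y x • l x = 0
    rw [hx0, zero_smul]
  have h3 : ∀ y ∈ s, Tendsto (fun n => S.T (fun x => ze S F n x • dd (fun x => g y x • l x) x)) atTop
      (𝓝 0) := fun y hy => h1 y _ (hgl y hy) (hgs y hy) (hgt y hy)
  have h5 : l = fun x => ∑ y ∈ s, g y x • l x := by
    funext x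
    by_cases hx : x ∈ tsupport l
    · rw [← Finset.sum_smul, hsum x hx, one_smul]
    · rw [image_eq_zero_of_notMem_tsupport hx]
      symm
      apply Finset.sum_eq_zero
      intro y _
      rw [smul_zero]
  have h6 : ∀ x, dd l x = ∑ y ∈ s, dd (fun x => g y x • l x) x := by
    intro x
    have h7 : fderiv ℝ l x = ∑ y ∈ s, fderiv ℝ (fun x => g y x • l x) x := by
      conv_lhs => rw [h5]
      rw [fderiv_fun_sum]
      intro y hy
      exact (hgl y hy).differentiable (by simp) x
    ext u v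
    rw [dd_apply, h7, sum_apply, sum_apply, sum_apply, sum_apply,
      sum_apply, sum_apply, ← Finset.sum_sub_distrib]
    rfl
  have h4 : ∀ n, S.T (fun x => ze S F n x • dd l x) =
      ∑ y ∈ s, S.T (fun x => ze S F n x • dd (fun x => g y x • l x) x) := by
    intro n
    rw [← T_sum S s fun y hy => ze_cf (dd_cf (hgl y hy) (hgs y hy)) n]
    congr 1
    funext x
    rw [h6 x, Finset.smul_sum]
  simp_rw [h4]
  have h8 := tendsto_finsetSum s fun y hy => h3 y hy
  simpa using h8

variable (S F)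

/-- the restriction of the current -/
def TZ (φ : R4 → F2) : ℝ := limUnder atTop (fun n => S.T (fun x => ze S F n x • φ x))

variable {S F}

section

variable (hM : ∀ j, Mini S j (F j)) (hL : Lims S F) (hS : ∀ x ∈ S.supp, LocStr S x)
include hM hL hS

theorem TZ_tendsto {φ : R4 → F2} (hφ : CF φ) :
    Tendsto (fun n => S.T (fun x => ze S F n x • φ x)) atTop (𝓝 (TZ S F φ)) :=
  tendsto_nhds_limUnder (exists_lim hM hL hS hφ)

theorem TZ_fnl : Fnl (TZ S F) where
  add φ ψ h1 h2 := by
    have h3 := (TZ_tendsto hM hL hS h1).add (TZ_tendsto hM hL hS h2)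
    refine tendsto_nhds_unique (TZ_tendsto hM hL hS (CF.add h1 h2)) (h3.congr fun n => ?_)
    rw [← T_add S (ze_cf h1 n) (ze_cf h2 n)]
    congr 1
    funext x
    show _ = ze S F n x • (φ x + ψ x)
    rw [smul_add]
  smul c φ h1 := by
    have h3 := (TZ_tendsto hM hL hS h1).const_mul c
    refine tendsto_nhds_unique (TZ_tendsto hM hL hS (CF.smul c h1)) (h3.congr fun n => ?_)
    rw [← T_smul S c (ze_cf h1 n)]
    congr 1
    funext x
    show _ = ze S F n x • (c • φ x)
    rw [smul_comm]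
  per φ h1 k := by
    have h3 := TZ_tendsto hM hL hS h1
    refine tendsto_nhds_unique (TZ_tendsto hM hL hS (CF.tr h1 k)) (h3.congr fun n => ?_)
    rw [← S.per _ (ze_cf h1 n) k]
    congr 1
    funext x
    rw [ze_tr hM]
  closed l hl hs :=
    tendsto_nhds_unique (TZ_tendsto hM hL hS (dd_cf hl hs)) (lim_dd hM hL hS hl hs)

theorem TZ_nonneg {φ : R4 → F2} (hφ : CF φ) (h : ∀ x u, 0 ≤ φ x u (D.J x u)) : 0 ≤ TZ S F φ := by
  refine ge_of_tendsto' (TZ_tendsto hM hL hS hφ) fun n => ?_
  refine S.pos _ (ze_cf hφ n) fun x u => ?_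
  show 0 ≤ ze S F n x * φ x u (D.J x u)
  exact mul_nonneg (ze_nonneg n x) (h x u)

theorem TZ_mono {φ ψ : R4 → F2} (h1 : CF φ) (h2 : CF ψ)
    (h : ∀ x u, φ x u (D.J x u) ≤ ψ x u (D.J x u)) : TZ S F φ ≤ TZ S F ψ := by
  refine le_of_tendsto_of_tendsto' (TZ_tendsto hM hL hS h1) (TZ_tendsto hM hL hS h2) fun n => ?_
  refine T_mono S (ze_cf h1 n) (ze_cf h2 n) fun x u => ?_
  show ze S F n x * φ x u (D.J x u) ≤ ze S F n x * ψ x u (D.J x u)
  exact mul_le_mul_of_nonneg_left (h x u) (ze_nonneg n x)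

end

/-- energies over compact parts of `ZZ` tend to zero -/
theorem en_tendsto_zero (hM : ∀ j, Mini S j (F j)) {f : R4 → ℝ} (hf : Continuous f)
    (hs : HasCompactSupport f) (hp : ∀ x, 0 ≤ f x)
    (hd : ∀ y ∈ tsupport f, y ∈ S.supp → y ∈ ZZ S F) (j : Fin 4) :
    Tendsto (en1 S F f j) atTop (𝓝 0) := by
  have hrad : ∀ y ∈ tsupport f, ∃ ρ > 0, ∀ g : R4 → ℝ, Continuous g → HasCompactSupport g →
      (∀ x, 0 ≤ g x) → tsupport g ⊆ ball y ρ → Tendsto (en1 S F g j) atTop (𝓝 0) := by
    intro y hy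
    by_cases hy2 : y ∈ S.supp
    · obtain ⟨-, ε, hε, h1⟩ := hd y hy hy2
      exact ⟨ε, hε, fun g h2 h3 h4 h5 => h1 g h2 h3 h4 h5 j⟩
    · obtain ⟨ρ, hρ, h1⟩ := not_supp hy2
      refine ⟨ρ, hρ, fun g h2 h3 h4 h5 => ?_⟩
      have : ∀ n, en1 S F g j n = 0 := fun n =>
        h1 _ (qf_cf D (cont_fderiv ((hM j).smooth n)) h2 h3) (tsupp_sub.trans h5)
      rw [show en1 S F g j = fun _ => 0 from funext this]
      exact tendsto_const_nhds
  choose! ρ hρ h1 using hrad
  obtain ⟨s, g, hg, hsum⟩ := exists_pu hs.isCompact ρ hρ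
  have h3 : ∀ y ∈ s, Tendsto (en1 S F (fun x => g y x * f x) j) atTop (𝓝 0) := by
    intro y hy
    apply h1 y (hg y hy).1 _ ((hg y hy).2.1.continuous.mul hf) (hs.mul_left)
      (fun x => mul_nonneg ((hg y hy).2.2.2.1 x) (hp x))
    refine Subset.trans ?_ (hg y hy).2.2.2.2
    apply closure_mono
    intro x hx hx0
    apply hx
    show g y x * f x = 0
    rw [hx0, zero_mul]
  have h4 : en1 S F f j = fun n => ∑ y ∈ s, en1 S F (fun x => g y x * f x) j n := by
    funext n
    have h5 : ∀ y ∈ s, CF (fun x => (g y x * f x) • qf D x (fderiv ℝ (F j n) x)) := fun y hy =>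
      qf_cf D (cont_fderiv ((hM j).smooth n)) ((hg y hy).2.1.continuous.mul hf) (hs.mul_left)
    show S.T (fun x => f x • qf D x (fderiv ℝ (F j n) x)) =
      ∑ y ∈ s, S.T (fun x => (g y x * f x) • qf D x (fderiv ℝ (F j n) x))
    rw [← T_sum S s h5]
    congr 1
    funext x
    by_cases hx : x ∈ tsupport f
    · rw [← Finset.sum_smul, ← Finset.sum_mul, hsum x hx, one_mul]
    · rw [image_eq_zero_of_notMem_tsupport hx, zero_smul]
      symm
      apply Finset.sum_eq_zero
      intro y _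
      rw [mul_zero, zero_smul]
  rw [h4]
  have h8 := tendsto_finsetSum s fun y hy => h3 y hy
  simpa using h8

section

variable (hM : ∀ j, Mini S j (F j)) (hL : Lims S F) (hS : ∀ x ∈ S.supp, LocStr S x)
include hM hL hS

/-- energies of the restriction tend to zero -/
theorem TZ_en {χ : R4 → ℝ} (hχ : Continuous χ) (hs : HasCompactSupport χ) (hp : ∀ x, 0 ≤ χ x)
    (j : Fin 4) : Tendsto (fun n => TZ S F (fun x => χ x • qf D x (fderiv ℝ (F j n) x))) atTop
      (𝓝 0) := by
  have hcf : ∀ n, CF (fun x => χ x • qf D x (fderiv ℝ (F j n) x)) := fun n =>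
    qf_cf D (cont_fderiv ((hM j).smooth n)) hχ hs
  have hnn : ∀ n, 0 ≤ TZ S F (fun x => χ x • qf D x (fderiv ℝ (F j n) x)) := by
    intro n
    refine TZ_nonneg hM hL hS (hcf n) fun x u => ?_
    show 0 ≤ χ x * qf D x (fderiv ℝ (F j n) x) u (D.J x u)
    rw [qf_J]
    have := hp x
    positivity
  rw [Metric.tendsto_atTop]
  intro η hη
  obtain ⟨n₀, hn₀⟩ := (hM j).cau χ hχ hs hp (η / 4) (by positivity)
  refine ⟨n₀, fun n hn => ?_⟩
  rw [Real.dist_eq, sub_zero, abs_of_nonneg (hnn n)]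
  have hle : TZ S F (fun x => χ x • qf D x (fderiv ℝ (F j n) x)) ≤ η / 2 := by
    refine le_of_tendsto' (TZ_tendsto hM hL hS (hcf n)) fun m => ?_
    -- the cut-off number `m` is fixed
    have hzχ : Continuous fun x => ze S F m x * χ x := (ze_cont m).mul hχ
    have hzs : HasCompactSupport fun x => ze S F m x * χ x := hs.mul_left
    have hzp : ∀ x, 0 ≤ ze S F m x * χ x := fun x => mul_nonneg (ze_nonneg m x) (hp x)
    have hlim : Tendsto (en1 S F (fun x => ze S F m x * χ x) j) atTop (𝓝 0) := by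
      apply en_tendsto_zero hM hzχ hzs hzp
      intro y hy hyS
      by_contra hn
      have h1 : y ∈ tsupport (ze S F m) := by
        refine closure_mono ?_ hy
        intro x hx hx0
        apply hx
        show ze S F m x * χ x = 0
        rw [hx0, zero_mul]
      exact (Set.disjoint_left.1 (ze_tsupport m) h1) ⟨hyS, hn⟩
    have hlim2 : Tendsto (fun i => η / 2 + 2 * en1 S F (fun x => ze S F m x * χ x) j i) atTop
        (𝓝 (η / 2 + 2 * 0)) := tendsto_const_nhds.add (hlim.const_mul 2)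
    rw [mul_zero, add_zero] at hlim2
    refine ge_of_tendsto hlim2 ?_
    filter_upwards [eventually_ge_atTop n₀] with i hi
    have hda : Continuous fun x => fderiv ℝ (F j n) x - fderiv ℝ (F j i) x :=
      (cont_fderiv ((hM j).smooth n)).sub (cont_fderiv ((hM j).smooth i))
    have hA : CF (fun x => ze S F m x • (χ x • qf D x (fderiv ℝ (F j n) x))) := ze_cf (hcf n) m
    have hB : CF (fun x => χ x • qf D x (fderiv ℝ (F j n) x - fderiv ℝ (F j i) x)) :=
      qf_cf D hda hχ hs
    have hC : CF (fun x => (ze S F m x * χ x) • qf D x (fderiv ℝ (F j i) x)) :=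
      qf_cf D (cont_fderiv ((hM j).smooth i)) hzχ hzs
    have h1 : S.T (fun x => ze S F m x • (χ x • qf D x (fderiv ℝ (F j n) x))) ≤
        S.T (fun x => (2 : ℝ) • (χ x • qf D x (fderiv ℝ (F j n) x - fderiv ℝ (F j i) x)) +
          (2 : ℝ) • ((ze S F m x * χ x) • qf D x (fderiv ℝ (F j i) x))) := by
      refine T_mono S hA (CF.add (CF.smul 2 hB) (CF.smul 2 hC)) fun x u => ?_
      show ze S F m x * (χ x * qf D x (fderiv ℝ (F j n) x) u (D.J x u)) ≤
        2 * (χ x * qf D x (fderiv ℝ (F j n) x - fderiv ℝ (F j i) x) u (D.J x u)) +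
        2 * ((ze S F m x * χ x) * qf D x (fderiv ℝ (F j i) x) u (D.J x u))
      rw [qf_J, qf_J, qf_J]
      show ze S F m x * (χ x * (fderiv ℝ (F j n) x u ^ 2 + fderiv ℝ (F j n) x (D.J x u) ^ 2)) ≤
        2 * (χ x * ((fderiv ℝ (F j n) x u - fderiv ℝ (F j i) x u) ^ 2 +
          (fderiv ℝ (F j n) x (D.J x u) - fderiv ℝ (F j i) x (D.J x u)) ^ 2)) +
        2 * ((ze S F m x * χ x) * (fderiv ℝ (F j i) x u ^ 2 + fderiv ℝ (F j i) x (D.J x u) ^ 2))
      generalize fderiv ℝ (F j n) x u = a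
      generalize fderiv ℝ (F j n) x (D.J x u) = b
      generalize fderiv ℝ (F j i) x u = c
      generalize fderiv ℝ (F j i) x (D.J x u) = d
      have hz0 := ze_nonneg (S := S) (F := F) m x
      have hz1 := ze_le_one (S := S) (F := F) m x
      have hx0 := hp x
      have k1 : a ^ 2 + b ^ 2 ≤ 2 * ((a - c) ^ 2 + (b - d) ^ 2) + 2 * (c ^ 2 + d ^ 2) := by
        nlinarith [sq_nonneg (a - 2 * c), sq_nonneg (b - 2 * d)]
      have k2 : ze S F m x * χ x * (a ^ 2 + b ^ 2) ≤
          ze S F m x * χ x * (2 * ((a - c) ^ 2 + (b - d) ^ 2) + 2 * (c ^ 2 + d ^ 2)) :=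
        mul_le_mul_of_nonneg_left k1 (mul_nonneg hz0 hx0)
      have k3 : ze S F m x * (χ x * ((a - c) ^ 2 + (b - d) ^ 2)) ≤
          1 * (χ x * ((a - c) ^ 2 + (b - d) ^ 2)) :=
        mul_le_mul_of_nonneg_right hz1 (by positivity)
      nlinarith
    have h2 : S.T (fun x => (2 : ℝ) • (χ x • qf D x (fderiv ℝ (F j n) x - fderiv ℝ (F j i) x)) +
          (2 : ℝ) • ((ze S F m x * χ x) • qf D x (fderiv ℝ (F j i) x))) =
        2 * S.T (fun x => χ x • qf D x (fderiv ℝ (F j n) x - fderiv ℝ (F j i) x)) +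
        2 * en1 S F (fun x => ze S F m x * χ x) j i := by
      have h4 := S.add _ _ (CF.smul 2 hB) (CF.smul 2 hC)
      rw [S.smul _ _ hB, S.smul _ _ hC] at h4
      exact h4
    rw [h2] at h1
    have h3 := hn₀ n hn i hi
    linarith
  linarith

/-- constant forms `dxᵢ ∧ dxⱼ` have no mass -/
theorem TZ_dxx (i j : Fin 4) : TZ S F (fun x => bet x • wg (pj i) (pj j)) = 0 := by
  have hF := TZ_fnl hM hL hS
  have hb : Continuous bet := bet_smooth.continuous
  -- for every `n`
  have key : ∀ n, |2 * TZ S F (fun x => bet x • wg (pj i) (pj j))| ≤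
      TZ S F (fun x => bet x • qf D x (fderiv ℝ (F i n) x)) +
      TZ S F (fun x => bet x • qf D x (fderiv ℝ (F j n) x)) := by
    intro n
    have hFi := (hM i).smooth n
    have hFj := (hM j).smooth n
    set fi : R4 → ℝ := fun x => F i n x - x i with hfi
    set fj : R4 → ℝ := fun x => F j n x - x j with hfj
    have hfis : ContDiff ℝ ∞ fi := hFi.sub (contDiff_apply ℝ ℝ i)
    have hfjs : ContDiff ℝ ∞ fj := hFj.sub (contDiff_apply ℝ ℝ j)
    have hdi : ∀ x, fderiv ℝ (F i n) x = pj i + fderiv ℝ fi x := by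
      intro x
      have h1 : fderiv ℝ fi x = fderiv ℝ (F i n) x - pj i := by
        have h2 : HasFDerivAt (fun x : R4 => x i) (pj i) x := (pj i).hasFDerivAt
        exact ((hFi.differentiable (by simp) x).hasFDerivAt.sub h2).fderiv
      rw [h1]; abel
    have hdj : ∀ x, fderiv ℝ (F j n) x = pj j + fderiv ℝ fj x := by
      intro x
      have h1 : fderiv ℝ fj x = fderiv ℝ (F j n) x - pj j := by
        have h2 : HasFDerivAt (fun x : R4 => x j) (pj j) x := (pj j).hasFDerivAt
        exact ((hFj.differentiable (by simp) x).hasFDerivAt.sub h2).fderiv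
      rw [h1]; abel
    have hperi : ∀ (k : Fin 4 → ℤ) x, fi (tr k x) = fi x := by
      intro k x
      simp only [hfi]
      rw [(hM i).per n k x]
      simp only [tr]
      ring
    have hperj : ∀ (k : Fin 4 → ℤ) x, fj (tr k x) = fj x := by
      intro k x
      simp only [hfj]
      rw [(hM j).per n k x]
      simp only [tr]
      ring
    -- two exact forms
    have hl1 : ContDiff ℝ ∞ (fun x => fi x • fderiv ℝ (F j n) x) :=
      hfis.smul (hFj.fderiv_right (by simp))
    have hl2 : ContDiff ℝ ∞ (fun x => fj x • pj i) := hfjs.smul contDiff_const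
    have hE1 := Fn_exact hF bet_isPU hl1 (fun k x => by
      rw [hperi, dF_tr hM j n k x])
    have hE2 := Fn_exact hF bet_isPU hl2 (fun k x => by rw [hperj])
    have hd1 : ∀ x, dd (fun x => fi x • fderiv ℝ (F j n) x) x =
        wg (fderiv ℝ fi x) (fderiv ℝ (F j n) x) := by
      intro x
      rw [dd_smul hfis (hFj.fderiv_right (by simp)) x]
      have h1 : dd (fun x => fderiv ℝ (F j n) x) x = 0 := by
        ext u v
        have h2 : IsSymmSndFDerivAt ℝ (F j n) x := by
          apply hFj.contDiffAt.isSymmSndFDerivAt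
          rw [minSmoothness_of_isRCLikeNormedField]
          exact WithTop.coe_le_coe.2 (le_top : (2 : ℕ∞) ≤ ⊤)
        show fderiv ℝ (fderiv ℝ (F j n)) x u v - fderiv ℝ (fderiv ℝ (F j n)) x v u = 0
        rw [h2 u v, sub_self]
      rw [h1, smul_zero, zero_add]
    have hd2 : ∀ x, dd (fun x => fj x • pj i) x = wg (fderiv ℝ fj x) (pj i) := by
      intro x
      rw [dd_smul hfjs contDiff_const x]
      have h1 : dd (fun _ : R4 => pj i) x = 0 := by
        ext u v
        rw [dd_apply, fderiv_const_apply]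
        show (0 : ℝ) - 0 = 0
        ring
      rw [h1, smul_zero, zero_add]
    have hca := cont_fderiv hFi
    have hcb := cont_fderiv hFj
    have hcfi := cont_fderiv hfis
    have hcfj := cont_fderiv hfjs
    have c0 : CF (fun x => bet x • wg (pj i) (pj j)) :=
      CF.fmul hb bet_compact continuous_const fun x u => wg_self _ _ _
    have c1 : CF (fun x => bet x • dd (fun x => fi x • fderiv ℝ (F j n) x) x) :=
      CF.fmul hb bet_compact (continuous_flip_fderiv hl1) (dd_self _)
    have c2 : CF (fun x => bet x • dd (fun x => fj x • pj i) x) :=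
      CF.fmul hb bet_compact (continuous_flip_fderiv hl2) (dd_self _)
    have c3 : CF (fun x => bet x • wg (fderiv ℝ (F i n) x) (fderiv ℝ (F j n) x)) :=
      CF.fmul hb bet_compact (wg_continuous hca hcb) fun x u => wg_self _ _ _
    have c4 := qf_cf D hca hb bet_compact
    have c5 := qf_cf D hcb hb bet_compact
    have hsum : TZ S F (fun x => bet x • wg (fderiv ℝ (F i n) x) (fderiv ℝ (F j n) x)) =
        TZ S F (fun x => bet x • wg (pj i) (pj j)) := by
      have h1 : (fun x => bet x • wg (fderiv ℝ (F i n) x) (fderiv ℝ (F j n) x)) =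
          fun x => (bet x • wg (pj i) (pj j) + bet x • dd (fun x => fi x • fderiv ℝ (F j n) x) x)
            - bet x • dd (fun x => fj x • pj i) x := by
        funext x
        rw [hd1, hd2]
        ext u v
        show bet x * wg (fderiv ℝ (F i n) x) (fderiv ℝ (F j n) x) u v =
          (bet x * wg (pj i) (pj j) u v + bet x * wg (fderiv ℝ fi x) (fderiv ℝ (F j n) x) u v) -
            bet x * wg (fderiv ℝ fj x) (pj i) u v
        rw [wg_apply, wg_apply, wg_apply, wg_apply, hdi x, hdj x]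
        show bet x * ((pj i u + fderiv ℝ fi x u) * (pj j v + fderiv ℝ fj x v) -
          (pj j u + fderiv ℝ fj x u) * (pj i v + fderiv ℝ fi x v)) =
          bet x * (pj i u * pj j v - pj j u * pj i v) +
            bet x * (fderiv ℝ fi x u * (pj j v + fderiv ℝ fj x v) -
              (pj j u + fderiv ℝ fj x u) * fderiv ℝ fi x v) -
            bet x * (fderiv ℝ fj x u * pj i v - pj i u * fderiv ℝ fj x v)
        ring
      have h2 := Fn_sub hF (CF.add c0 c1) c2
      rw [hF.add _ _ c0 c1, hE1, hE2] at h2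
      rw [h1]
      refine h2.trans ?_
      ring
    rw [← hsum, abs_le]
    constructor
    · have h1 := TZ_nonneg hM hL hS (CF.add (CF.add c4 c5) (CF.smul 2 c3)) (fun x u => by
        show 0 ≤ (bet x * qf D x (fderiv ℝ (F i n) x) u (D.J x u) +
          bet x * qf D x (fderiv ℝ (F j n) x) u (D.J x u)) +
          2 * (bet x * wg (fderiv ℝ (F i n) x) (fderiv ℝ (F j n) x) u (D.J x u))
        rw [qf_J, qf_J, wg_apply]
        have := bet_nonneg x
        generalize fderiv ℝ (F i n) x u = a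
        generalize fderiv ℝ (F i n) x (D.J x u) = b
        generalize fderiv ℝ (F j n) x u = c
        generalize fderiv ℝ (F j n) x (D.J x u) = d
        have h2 : bet x * (a ^ 2 + b ^ 2) + bet x * (c ^ 2 + d ^ 2) +
          2 * (bet x * (a * d - c * b)) = bet x * ((a + d) ^ 2 + (b - c) ^ 2) := by ring
        rw [h2]
        positivity)
      rw [hF.add _ _ (CF.add c4 c5) (CF.smul 2 c3), hF.add _ _ c4 c5, hF.smul _ _ c3] at h1
      linarith
    · have h1 := TZ_nonneg hM hL hS (CF.add (CF.add c4 c5) (CF.smul (-2) c3)) (fun x u => by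
        show 0 ≤ (bet x * qf D x (fderiv ℝ (F i n) x) u (D.J x u) +
          bet x * qf D x (fderiv ℝ (F j n) x) u (D.J x u)) +
          (-2) * (bet x * wg (fderiv ℝ (F i n) x) (fderiv ℝ (F j n) x) u (D.J x u))
        rw [qf_J, qf_J, wg_apply]
        have := bet_nonneg x
        generalize fderiv ℝ (F i n) x u = a
        generalize fderiv ℝ (F i n) x (D.J x u) = b
        generalize fderiv ℝ (F j n) x u = c
        generalize fderiv ℝ (F j n) x (D.J x u) = d
        have h2 : bet x * (a ^ 2 + b ^ 2) + bet x * (c ^ 2 + d ^ 2) +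
          (-2) * (bet x * (a * d - c * b)) = bet x * ((a - d) ^ 2 + (b + c) ^ 2) := by ring
        rw [h2]
        positivity)
      rw [hF.add _ _ (CF.add c4 c5) (CF.smul (-2) c3), hF.add _ _ c4 c5, hF.smul _ _ c3] at h1
      linarith
  have hlim : Tendsto (fun n => TZ S F (fun x => bet x • qf D x (fderiv ℝ (F i n) x)) +
      TZ S F (fun x => bet x • qf D x (fderiv ℝ (F j n) x))) atTop (𝓝 (0 + 0)) :=
    (TZ_en hM hL hS hb bet_compact bet_nonneg i).add (TZ_en hM hL hS hb bet_compact bet_nonneg j)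
  rw [add_zero] at hlim
  have h0 := ge_of_tendsto' hlim key
  have h1 := abs_eq_zero.1 (le_antisymm h0 (abs_nonneg _))
  linarith

end

end Vale.Agent.P247.H821
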