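import Vale.Agent.P247.H821.H3Main
import Vale.Agent.P247.H821.Repar
import Vale.Agent.P247.H306.HodD
import Vale.Agent.P247.H690.HD.Lims
import Vale.Agent.P247.H690.HD.Min

/-!
# P247, layer C: HODGE, a holomorphic one-form on the singular curve
-/

namespace Vale.Agent.P247.H821

theorem HODGE : Vale.Agent.P247.H574.HODGE_statement :=
  Vale.Agent.P247.H306.HODGEX Vale.Agent.P247.H690.HD.MIN Vale.Agent.P247.H306.weyl
    Vale.Agent.P247.H690.HD.LIMS H3 Vale.Agent.P247.H306.gen RECENTER REPAR

end Vale.Agent.P247.H821
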