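import Vale.Agent.P247.H574.Sta2

/-!
# P247, HODGE: a finite smooth partition of unity on a compact set
-/

open scoped ContDiff Topology Manifold
open Set MeasureTheory Filter Metric

noncomputable section

namespace Vale.Agent.P247.H821

open Vale.Agent.P247.H74 Vale.Agent.P247.H574

theorem exists_pu {K : Set R4} (hK : IsCompact K) (ρ : R4 → ℝ) (hρ : ∀ x ∈ K, 0 < ρ x) :
    ∃ (s : Finset R4) (g : R4 → R4 → ℝ), (∀ x ∈ s, x ∈ K ∧ ContDiff ℝ ∞ (g x) ∧
      HasCompactSupport (g x) ∧ (∀ y, 0 ≤ g x y) ∧ tsupport (g x) ⊆ ball x (ρ x)) ∧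
      ∀ y ∈ K, ∑ x ∈ s, g x y = 1 := by
  classical
  obtain ⟨t, htK, hcov⟩ := hK.elim_nhds_subcover (fun x => ball x (ρ x))
    (fun x hx => ball_mem_nhds x (hρ x hx))
  obtain ⟨f, hf⟩ := SmoothPartitionOfUnity.exists_isSubordinate 𝓘(ℝ, R4) hK.isClosed
    (fun i : t => ball (i : R4) (ρ i)) (fun _ => isOpen_ball) (by
      intro y hy
      obtain ⟨x, hx, hyx⟩ := mem_iUnion₂.1 (hcov hy)
      exact mem_iUnion.2 ⟨⟨x, hx⟩, hyx⟩)
  set g : R4 → R4 → ℝ := fun x y => if h : x ∈ t then f ⟨x, h⟩ y else 0 with hg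
  have hgt : ∀ x (h : x ∈ t), g x = f ⟨x, h⟩ := by
    intro x h
    funext y
    simp only [hg]
    rw [dif_pos h]
  refine ⟨t, g, fun x hx => ⟨htK x hx, ?_, ?_, ?_, ?_⟩, fun y hy => ?_⟩
  · rw [hgt x hx]
    exact (f ⟨x, hx⟩).contMDiff.contDiff
  · rw [hgt x hx]
    have h1 := hf ⟨x, hx⟩
    exact (isCompact_closedBall x (ρ x)).of_isClosed_subset (isClosed_tsupport _)
      (h1.trans ball_subset_closedBall)
  · intro y
    rw [hgt x hx]
    exact f.nonneg _ _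
  · rw [hgt x hx]
    exact hf ⟨x, hx⟩
  · have h1 := f.sum_eq_one hy
    rw [finsum_eq_sum_of_fintype] at h1
    rw [← h1, ← Finset.sum_coe_sort t]
    refine Finset.sum_congr rfl fun i _ => ?_
    rw [hgt i.1 i.2]

end Vale.Agent.P247.H821
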