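import Vale.Agent.P247.H690.HD.Sta

/-!
# P247, HODGE: a branch disc is a closed current
-/

open scoped ContDiff Topology
open Set MeasureTheory Filter Metric

noncomputable section

namespace Vale.Agent.P247.H821

open Vale.Agent.P247.H74 Vale.Agent.P247.H574

theorem int_fderiv_zero {g : ℂ → ℝ} (hg : ContDiff ℝ ∞ g) (hs : HasCompactSupport g) (v : ℂ) :
    ∫ z, fderiv ℝ g z v = 0 := by
  have hd : Differentiable ℝ g := hg.differentiable (by simp)
  have hc : Continuous fun z => fderiv ℝ g z v :=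
    (hg.continuous_fderiv (by simp)).clm_apply continuous_const
  have hcs : HasCompactSupport fun z => fderiv ℝ g z v := hs.fderiv_apply (𝕜 := ℝ) v
  have h := integral_mul_fderiv_eq_neg_fderiv_mul_of_integrable (μ := (volume : Measure ℂ))
    (f := fun _ : ℂ => (1 : ℝ)) (g := g) (v := v) ?_ ?_ ?_ (fun x _ => differentiableAt_const _)
    (fun x _ => hd x)
  · simpa using h
  · simp
  · simpa using hc.integrable_of_hasCompactSupport hcs
  · simpa using hg.continuous.integrable_of_hasCompactSupport hs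

/-- the compact set of parameters over the support of a form -/
theorem disc_compact {u : ℂ → R4} (hu : ContDiffOn ℝ ∞ u (ball 0 2)) {x : R4} {ε : ℝ}
    (hfar : ∀ z ∈ ball (0 : ℂ) 2, 1 ≤ ‖z‖ → ε ≤ dist (u z) x) {A : Set R4} (hA : IsClosed A)
    (hsub : A ⊆ ball x ε) :
    IsCompact {z | z ∈ closedBall (0 : ℂ) 1 ∧ u z ∈ A} ∧
      {z | z ∈ closedBall (0 : ℂ) 1 ∧ u z ∈ A} ⊆ ball 0 1 ∧
      ∀ z ∈ ball (0 : ℂ) 2, u z ∈ A → z ∈ {z | z ∈ closedBall (0 : ℂ) 1 ∧ u z ∈ A} := by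
  have h12 : closedBall (0 : ℂ) 1 ⊆ ball 0 2 := closedBall_subset_ball (by norm_num)
  have hc : ContinuousOn u (closedBall (0 : ℂ) 1) := hu.continuousOn.mono h12
  have hcl : IsClosed {z | z ∈ closedBall (0 : ℂ) 1 ∧ u z ∈ A} :=
    hc.preimage_isClosed_of_isClosed isClosed_closedBall hA
  refine ⟨(isCompact_closedBall (0 : ℂ) 1).of_isClosed_subset hcl fun z hz => hz.1, ?_, ?_⟩
  · rintro z ⟨hz, hzA⟩
    by_contra hn
    rw [mem_ball_zero_iff, not_lt] at hn
    have h1 := hfar z (h12 hz) hn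
    have h2 := hsub hzA
    rw [mem_ball] at h2
    linarith
  · intro z hz hzA
    refine ⟨?_, hzA⟩
    rw [mem_closedBall_zero_iff]
    by_contra hn
    rw [not_le] at hn
    have h1 := hfar z hz hn.le
    have h2 := hsub hzA
    rw [mem_ball] at h2
    linarith

/-- Stokes on a branch disc -/
theorem brI_dd {u : ℂ → R4} (hu : ContDiffOn ℝ ∞ u (ball 0 2)) {x : R4} {ε : ℝ}
    (hfar : ∀ z ∈ ball (0 : ℂ) 2, 1 ≤ ‖z‖ → ε ≤ dist (u z) x) {l : R4 → R4 →L[ℝ] ℝ}
    (hl : ContDiff ℝ ∞ l) (hsub : tsupport l ⊆ ball x ε) : brI u (dd l) = 0 := by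
  classical
  obtain ⟨hC, hC1, hC2⟩ := disc_compact hu hfar (isClosed_tsupport l) hsub
  set C : Set ℂ := {z | z ∈ closedBall (0 : ℂ) 1 ∧ u z ∈ tsupport l} with hCdef
  have h12 : ball (0 : ℂ) 1 ⊆ ball 0 2 := ball_subset_ball (by norm_num)
  set g : ℂ → ℂ → ℝ := fun v z => if z ∈ ball (0 : ℂ) 2 then l (u z) (fderiv ℝ u z v) else 0
    with hg
  have hg0 : ∀ v z, z ∉ C → g v z = 0 := by
    intro v z hz
    simp only [hg]
    split_ifs with h
    · have : u z ∉ tsupport l := fun h' => hz (hC2 z h h')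
      rw [image_eq_zero_of_notMem_tsupport this]
      rfl
    · rfl
  have hua : ∀ z ∈ ball (0 : ℂ) 2, ContDiffAt ℝ ∞ u z := fun z hz =>
    hu.contDiffAt (isOpen_ball.mem_nhds hz)
  have hloc : ∀ v, ∀ z ∈ ball (0 : ℂ) 2, g v =ᶠ[𝓝 z] fun w => l (u w) (fderiv ℝ u w v) := by
    intro v z hz
    filter_upwards [isOpen_ball.mem_nhds hz] with w hw
    simp only [hg]
    rw [if_pos hw]
  have hsm : ∀ v, ContDiff ℝ ∞ (g v) := by
    intro v
    rw [contDiff_iff_contDiffAt]
    intro z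
    by_cases hz : z ∈ ball (0 : ℂ) 2
    · refine ContDiffAt.congr_of_eventuallyEq ?_ (hloc v z hz)
      have h1 : ContDiffAt ℝ ∞ (fderiv ℝ u) z := (hua z hz).fderiv_right (by simp)
      exact (hl.contDiffAt.comp z (hua z hz)).clm_apply (h1.clm_apply contDiffAt_const)
    · have hz' : z ∈ Cᶜ := fun h => hz (h12 (hC1 h))
      refine ContDiffAt.congr_of_eventuallyEq (contDiffAt_const (c := (0 : ℝ))) ?_
      filter_upwards [hC.isClosed.isOpen_compl.mem_nhds hz'] with w hw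
      exact hg0 v w hw
  have hcs : ∀ v, HasCompactSupport (g v) := fun v =>
    HasCompactSupport.intro hC fun z hz => hg0 v z hz
  -- the derivative
  have hder : ∀ v w, ∀ z ∈ ball (0 : ℂ) 2, fderiv ℝ (g v) z w =
      fderiv ℝ l (u z) (fderiv ℝ u z w) (fderiv ℝ u z v) +
        l (u z) (fderiv ℝ (fderiv ℝ u) z w v) := by
    intro v w z hz
    rw [(hloc v z hz).fderiv_eq]
    have h1 : HasFDerivAt u (fderiv ℝ u z) z := ((hua z hz).differentiableAt (by simp)).hasFDerivAt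
    have h2 : HasFDerivAt (fderiv ℝ u) (fderiv ℝ (fderiv ℝ u) z) z := by
      have : ContDiffAt ℝ ∞ (fderiv ℝ u) z := (hua z hz).fderiv_right (by simp)
      exact (this.differentiableAt (by simp)).hasFDerivAt
    have h3 : HasFDerivAt l (fderiv ℝ l (u z)) (u z) :=
      (hl.differentiable (by simp) (u z)).hasFDerivAt
    have h4 := (h3.comp z h1).clm_apply (h2.clm_apply (hasFDerivAt_const v z))
    have h5 := h4.fderiv
    have h6 := congrArg (fun L : ℂ →L[ℝ] ℝ => L w) h5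
    have h7 : (fun w => l (u w) (fderiv ℝ u w v)) =
      fun y => (l ∘ u) y ((fun y => fderiv ℝ u y v) y) := rfl
    rw [h7, h5]
    simp
    ring
  have hsymm : ∀ z ∈ ball (0 : ℂ) 2, ∀ v w, fderiv ℝ (fderiv ℝ u) z w v =
      fderiv ℝ (fderiv ℝ u) z v w := by
    intro z hz v w
    have h1 : IsSymmSndFDerivAt ℝ u z := by
      apply (hua z hz).isSymmSndFDerivAt
      rw [minSmoothness_of_isRCLikeNormedField]
      exact WithTop.coe_le_coe.2 (le_top : (2 : ℕ∞) ≤ ⊤)
    exact h1 w v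
  have hpt : ∀ z ∈ ball (0 : ℂ) 2, dd l (u z) (fderiv ℝ u z 1) (fderiv ℝ u z Complex.I) =
      fderiv ℝ (g Complex.I) z 1 - fderiv ℝ (g 1) z Complex.I := by
    intro z hz
    rw [hder _ _ z hz, hder _ _ z hz, hsymm z hz Complex.I 1]
    show fderiv ℝ l (u z) (fderiv ℝ u z 1) (fderiv ℝ u z Complex.I) -
      fderiv ℝ l (u z) (fderiv ℝ u z Complex.I) (fderiv ℝ u z 1) = _
    ring
  have h0 : ∀ v w z, z ∉ C → fderiv ℝ (g v) z w = 0 := by
    intro v w z hz
    have : g v =ᶠ[𝓝 z] fun _ => 0 := by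
      filter_upwards [hC.isClosed.isOpen_compl.mem_nhds hz] with y hy
      exact hg0 v y hy
    rw [this.fderiv_eq, fderiv_const_apply]
    rfl
  unfold brI
  have e1 : ∫ z in ball (0 : ℂ) 1, dd l (u z) (fderiv ℝ u z 1) (fderiv ℝ u z Complex.I) =
      ∫ z in ball (0 : ℂ) 1, (fderiv ℝ (g Complex.I) z 1 - fderiv ℝ (g 1) z Complex.I) :=
    setIntegral_congr_fun measurableSet_ball fun z hz => hpt z (h12 hz)
  rw [e1, setIntegral_eq_integral_of_forall_compl_eq_zero, integral_sub, int_fderiv_zero (hsm _)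
    (hcs _), int_fderiv_zero (hsm _) (hcs _), sub_self]
  · exact (((hsm _).continuous_fderiv (by simp)).clm_apply
      continuous_const).integrable_of_hasCompactSupport ((hcs _).fderiv_apply (𝕜 := ℝ) _)
  · exact (((hsm _).continuous_fderiv (by simp)).clm_apply
      continuous_const).integrable_of_hasCompactSupport ((hcs _).fderiv_apply (𝕜 := ℝ) _)
  · intro z hz
    have : z ∉ C := fun h => hz (hC1 h)
    rw [h0 _ _ z this, h0 _ _ z this, sub_zero]

end Vale.Agent.P247.H821
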