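import Vale.Agent.P247.H821.Energy
import Vale.Agent.P247.H821.Stokes
import Vale.Agent.P247.H821.PUfin
import Vale.Agent.P247.H690.HD.Min

/-!
# P247, HODGE: the restriction of the current to the branches with vanishing limits
-/

open scoped ContDiff Topology ENNReal NNReal
open Set MeasureTheory Filter Metric

noncomputable section

namespace Vale.Agent.P247.H821

open Vale.Agent.P247.H74 Vale.Agent.P247.H574 Vale.Agent.P247.H710 Vale.Agent.P247.H690.HD

attribute [local instance] f2G f2S f1G f1S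

variable {D : Data} {S : ICur D} {F : Fin 4 → ℕ → R4 → ℝ}

/-! ## invariance -/

theorem dF_tr (hM : ∀ j, Mini S j (F j)) (j : Fin 4) (n : ℕ) (k : Fin 4 → ℤ) (x : R4) :
    fderiv ℝ (F j n) (tr k x) = fderiv ℝ (F j n) x := by
  rw [← fderiv_comp_tr]
  have : (fun y => F j n (tr k y)) = fun y => F j n y + (k j : ℝ) := by
    funext y
    exact (hM j).per n k y
  rw [this, fderiv_add_const]

theorem tsupport_tr {f : R4 → ℝ} {y : R4} {ε : ℝ} (k : Fin 4 → ℤ)
    (h : tsupport f ⊆ ball (tr k y) ε) : tsupport (fun x => f (tr k x)) ⊆ ball y ε := by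
  have h1 : tsupport (fun x => f (tr k x)) ⊆ (tr k) ⁻¹' tsupport f :=
    tsupport_comp_subset_preimage f (tr_continuous k)
  intro x hx
  have h2 := h (h1 hx)
  rw [mem_ball, dist_eq_norm] at h2 ⊢
  have h3 : tr k x - tr k y = x - y := by
    funext i
    simp only [tr, Pi.sub_apply]
    ring
  rwa [h3] at h2

theorem en1_tr (hM : ∀ j, Mini S j (F j)) {f : R4 → ℝ} (hf : Continuous f)
    (hs : HasCompactSupport f) (j : Fin 4) (n : ℕ) (k : Fin 4 → ℤ) :
    en1 S F (fun x => f (tr k x)) j n = en1 S F f j n := by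
  unfold en1
  rw [← S.per _ (qf_cf D (cont_fderiv ((hM j).smooth n)) hf hs) k]
  congr 1
  funext x
  have h1 : D.J (tr k x) = D.J x := D.J_per k x
  unfold qf bf
  rw [h1, dF_tr hM j n k x]

theorem ZZ_tr (hM : ∀ j, Mini S j (F j)) {y : R4} (hy : y ∈ ZZ S F) (k : Fin 4 → ℤ) :
    tr k y ∈ ZZ S F := by
  obtain ⟨h1, ε, hε, h2⟩ := hy
  refine ⟨H690.END.supp_tr S h1 k, ε, hε, fun f hf hs hp hsub j => ?_⟩
  have h3 := h2 (fun x => f (tr k x)) (hf.comp (tr_continuous k))
    (hs.comp_homeomorph (trH k)) (fun x => hp _) (tsupport_tr k hsub) j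
  refine h3.congr fun n => ?_
  exact en1_tr hM hf hs j n k

theorem ZZ_tr_iff (hM : ∀ j, Mini S j (F j)) {y : R4} (k : Fin 4 → ℤ) :
    tr k y ∈ ZZ S F ↔ y ∈ ZZ S F := by
  refine ⟨fun h => ?_, fun h => ZZ_tr hM h k⟩
  have := ZZ_tr hM h (-k)
  rwa [tr_neg_cancel'] at this

/-! ## cut-off functions -/

variable (S F)

/-- the rest of the support -/
def WW : Set R4 := S.supp \ ZZ S F

theorem seq_pos (n : ℕ) : (0 : ℝ) < 1 / ((n : ℝ) + 1) := by positivity

/-- cut-off functions converging to the indicator function of `ZZ` on the support -/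
def ze (n : ℕ) (y : R4) : ℝ := max 0 (1 - 2 * (thickenedIndicator (seq_pos n) (WW S F) y : ℝ))

variable {S F}

theorem WW_closed : IsClosed (WW S F) := by
  have h1 := H690.END.supp_closed S
  rw [← isOpen_compl_iff, Metric.isOpen_iff]
  intro y hy
  by_cases hs : y ∈ S.supp
  · have hZ : y ∈ ZZ S F := by
      by_contra hn
      exact hy ⟨hs, hn⟩
    obtain ⟨ρ, hρ, h2⟩ := ZZ_open hZ
    exact ⟨ρ, hρ, fun y' hy' hW => hW.2 (h2 y' hW.1 hy')⟩
  · obtain ⟨ρ, hρ, h2⟩ := Metric.isOpen_iff.1 h1.isOpen_compl y hs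
    exact ⟨ρ, hρ, fun y' hy' hW => h2 hy' hW.1⟩

theorem ze_cont (n : ℕ) : Continuous (ze S F n) := by
  unfold ze
  refine continuous_const.max (continuous_const.sub (continuous_const.mul ?_))
  exact NNReal.continuous_coe.comp (thickenedIndicator (seq_pos n) (WW S F)).continuous

theorem ze_nonneg (n : ℕ) (y : R4) : 0 ≤ ze S F n y := le_max_left _ _

theorem ze_le_one (n : ℕ) (y : R4) : ze S F n y ≤ 1 := by
  apply max_le zero_le_one
  have : (0 : ℝ) ≤ (thickenedIndicator (seq_pos n) (WW S F) y : ℝ) := NNReal.coe_nonneg _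
  linarith

theorem ze_W (n : ℕ) {y : R4} (hy : y ∈ WW S F) : ze S F n y = 0 := by
  unfold ze
  rw [thickenedIndicator_one _ _ hy]
  norm_num

theorem ze_tendsto {y : R4} (hy : y ∉ WW S F) :
    Tendsto (fun n => ze S F n y) atTop (𝓝 1) := by
  have h1 := thickenedIndicator_tendsto_indicator_closure (α := R4) seq_pos
    tendsto_one_div_add_atTop_nhds_zero_nat (WW S F)
  have h2 := (tendsto_pi_nhds.1 h1) y
  rw [WW_closed.closure_eq, indicator_of_notMem hy] at h2
  have h3 : Tendsto (fun n => ((thickenedIndicator (seq_pos n) (WW S F) y : ℝ≥0) : ℝ)) atTop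
      (𝓝 0) := by
    have h0 := (NNReal.continuous_coe.tendsto 0).comp h2
    rw [NNReal.coe_zero] at h0
    exact h0
  have h4 : Tendsto (fun n => max 0 (1 - 2 * ((thickenedIndicator (seq_pos n) (WW S F) y : ℝ≥0)
      : ℝ))) atTop (𝓝 (max 0 (1 - 2 * 0))) :=
    tendsto_const_nhds.max (tendsto_const_nhds.sub (tendsto_const_nhds.mul h3))
  have h5 : max (0 : ℝ) (1 - 2 * 0) = 1 := by norm_num
  rw [h5] at h4
  exact h4

/-- the support of the cut-off functions avoids `WW` -/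
theorem ze_tsupport (n : ℕ) : Disjoint (tsupport (ze S F n)) (WW S F) := by
  rw [Set.disjoint_left]
  intro y hy hW
  have hcl : IsClosed {y : R4 | ((thickenedIndicator (seq_pos n) (WW S F) y : ℝ≥0) : ℝ) ≤ 1 / 2} :=
    isClosed_le (NNReal.continuous_coe.comp (thickenedIndicator (seq_pos n) (WW S F)).continuous)
      continuous_const
  have hsub : tsupport (ze S F n) ⊆
      {y : R4 | ((thickenedIndicator (seq_pos n) (WW S F) y : ℝ≥0) : ℝ) ≤ 1 / 2} := by
    apply closure_minimal _ hcl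
    intro z hz
    by_contra hn
    rw [mem_ofPred_eq, not_le] at hn
    apply hz
    unfold ze
    apply max_eq_left
    linarith
  have h1 := hsub hy
  rw [mem_ofPred_eq] at h1
  rw [thickenedIndicator_one _ _ hW] at h1
  norm_num at h1

theorem ze_tr (hM : ∀ j, Mini S j (F j)) (n : ℕ) (k : Fin 4 → ℤ) (y : R4) :
    ze S F n (tr k y) = ze S F n y := by
  have h1 : tr k '' WW S F = WW S F := by
    apply Subset.antisymm
    · rintro _ ⟨z, ⟨hz1, hz2⟩, rfl⟩
      exact ⟨H690.END.supp_tr S hz1 k, fun h => hz2 ((ZZ_tr_iff hM k).1 h)⟩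
    · rintro z ⟨hz1, hz2⟩
      refine ⟨tr (-k) z, ⟨H690.END.supp_tr S hz1 _, fun h => hz2 ((ZZ_tr_iff hM _).1 h)⟩,
        tr_neg_cancel k z⟩
  have hiso : Isometry (tr k) := by
    apply Isometry.of_dist_eq
    intro a b
    rw [dist_eq_norm, dist_eq_norm]
    congr 1
    funext i
    simp only [tr, Pi.sub_apply]
    ring
  have h2 : infEDist (tr k y) (WW S F) = infEDist y (WW S F) := by
    conv_lhs => rw [← h1]
    exact infEDist_image hiso
  unfold ze
  have h3 : thickenedIndicator (seq_pos n) (WW S F) (tr k y) =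
      thickenedIndicator (seq_pos n) (WW S F) y := by
    show (thickenedIndicatorAux _ (WW S F) (tr k y)).toNNReal =
      (thickenedIndicatorAux _ (WW S F) y).toNNReal
    unfold thickenedIndicatorAux
    rw [h2]
  rw [h3]

/-! ## the local limit -/

theorem ze_cf {φ : R4 → F2} (h : CF φ) (n : ℕ) : CF (fun x => ze S F n x • φ x) :=
  CF.fmul' (ze_cont n) h

theorem tsupp_sub' {f : R4 → ℝ} {φ : R4 → F2} : tsupport (fun x => f x • φ x) ⊆ tsupport φ := by
  apply closure_mono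
  intro x hx hx0
  apply hx
  show f x • φ x = 0
  rw [hx0, smul_zero]

theorem brI_cont {u : ℂ → R4} (hu : ContDiffOn ℝ ∞ u (ball 0 2)) {φ : R4 → F2}
    (hφ : Continuous φ) :
    ContinuousOn (fun z => φ (u z) (fderiv ℝ u z 1) (fderiv ℝ u z Complex.I)) (ball 0 2) := by
  have h2 : ContinuousOn (fderiv ℝ u) (ball 0 2) :=
    hu.continuousOn_fderiv_of_isOpen isOpen_ball (by simp)
  exact ((hφ.comp_continuousOn hu.continuousOn).clm_apply (h2.clm_apply continuousOn_const)).clm_apply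
    (h2.clm_apply continuousOn_const)

/-- near every point of the support the limit is the sum over some branches -/
theorem local_lim (hM : ∀ j, Mini S j (F j)) (hL : Lims S F) {x : R4} (hx : x ∈ S.supp) {N : ℕ}
    {u : Fin N → ℂ → R4} {k : Fin N → ℕ} {ε : ℝ} (h : LS1 S x N u k ε) :
    ∃ A : Finset (Fin N), ∃ ρ > 0, ρ ≤ ε ∧ (∀ l, ∀ z ∈ ball (0 : ℂ) 2, z ≠ 0 → u l z ∈ ball x ρ →
      (u l z ∈ ZZ S F ↔ l ∈ A)) ∧
      ∀ φ, CF φ → tsupport φ ⊆ ball x ρ →
      Tendsto (fun n => S.T (fun x => ze S F n x • φ x)) atTop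
        (𝓝 (∑ l, (k l : ℝ) * (if l ∈ A then brI (u l) φ else 0))) := by
  have hsm : ∀ j n, ContDiff ℝ ∞ (F j n) := fun j n => (hM j).smooth n
  choose r hr hr1 hh hLim using hL x hx N u k ε h
  classical
  set A : Finset (Fin N) := Finset.univ.filter fun l => ∀ j, ∀ z ∈ ball (0 : ℂ) (r l), hh l j z = 0
    with hA
  have hAm : ∀ l, l ∈ A ↔ ∀ j, ∀ z ∈ ball (0 : ℂ) (r l), hh l j z = 0 := fun l => by
    rw [hA, Finset.mem_filter]
    exact ⟨fun h => h.2, fun h => ⟨Finset.mem_univ l, h⟩⟩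
  have h12 : ball (0 : ℂ) 1 ⊆ ball 0 2 := ball_subset_ball (by norm_num)
  have hev : ∀ᶠ ρ in 𝓝[>] (0 : ℝ), ∀ l : Fin N, ρ ≤ ε ∧ ∀ l', ∀ z ∈ ball (0 : ℂ) 2,
      u l' z ∈ ball x ρ → z ∈ ball (0 : ℂ) (r l) :=
    eventually_all.2 fun l => Brs.near_zero h.brs (hr l)
  obtain ⟨ρ, hρ1, hρ⟩ := (hev.and (self_mem_nhdsWithin (s := Ioi (0 : ℝ)))).exists
  have hρ0 : 0 < ρ := hρ
  have hρε : ρ ≤ ε := (hρ1 ⟨0, h.brs.posN⟩).1
  have hiff : ∀ l, ∀ z ∈ ball (0 : ℂ) 2, z ≠ 0 → u l z ∈ ball x ρ →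
      (u l z ∈ ZZ S F ↔ l ∈ A) := by
    intro l z hz hz0 hzx
    have hzr := (hρ1 l).2 l z hz hzx
    have hzε := ball_subset_ball hρε hzx
    constructor
    · intro hZ
      exact (hAm l).2 (zero_of_mem_ZZ h hsm (hr1 l) (hLim l) hzr hz0 hzε hZ)
    · intro hlA
      exact mem_ZZ_of_zero h hsm (hr1 l) (hLim l) ((hAm l).1 hlA) hzr hz0 hzε
  refine ⟨A, ρ, hρ0, hρε, hiff, fun φ hφ hsub => ?_⟩
  have e1 : ∀ n, S.T (fun x => ze S F n x • φ x) = ∑ l, (k l : ℝ) *
      ∫ z in ball (0 : ℂ) 1, ze S F n (u l z) *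
        φ (u l z) (fderiv ℝ (u l) z 1) (fderiv ℝ (u l) z Complex.I) := by
    intro n
    rw [h.val _ (ze_cf hφ n) (tsupp_sub'.trans (hsub.trans (ball_subset_ball hρε)))]
    rfl
  simp_rw [e1]
  refine tendsto_finsetSum _ fun l _ => Tendsto.const_mul _ ?_
  have hcont := brI_cont (h.brs.disc l).smooth hφ.cont
  have hint : IntegrableOn (fun z => φ (u l z) (fderiv ℝ (u l) z 1)
      (fderiv ℝ (u l) z Complex.I)) (ball 0 1) := int_of_cont hcont
  have hzero : ∀ z, u l z ∉ ball x ρ → φ (u l z) = 0 := fun z hz =>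
    image_eq_zero_of_notMem_tsupport fun h => hz (hsub h)
  have hne0 : ∀ᵐ z ∂(volume.restrict (ball (0 : ℂ) 1)), z ≠ 0 := by
    apply ae_restrict_of_ae
    exact Measure.ae_ne volume 0
  have hlimit : (if l ∈ A then brI (u l) φ else 0) = ∫ z in ball (0 : ℂ) 1,
      (if l ∈ A then 1 else 0) * φ (u l z) (fderiv ℝ (u l) z 1)
        (fderiv ℝ (u l) z Complex.I) := by
    by_cases hl : l ∈ A
    · simp [hl, brI]
    · simp [hl]
  rw [hlimit]
  apply tendsto_integral_of_dominated_convergence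
    (fun z => ‖φ (u l z) (fderiv ℝ (u l) z 1) (fderiv ℝ (u l) z Complex.I)‖)
  · intro n
    refine ContinuousOn.aestronglyMeasurable ?_ measurableSet_ball
    exact (((ze_cont n).comp_continuousOn (h.brs.disc l).smooth.continuousOn).mul hcont).mono h12
  · exact hint.norm
  · intro n
    refine ae_of_all _ fun z => ?_
    rw [norm_mul, Real.norm_eq_abs, abs_of_nonneg (ze_nonneg n _)]
    exact mul_le_of_le_one_left (norm_nonneg _) (ze_le_one n _)
  · filter_upwards [hne0, ae_restrict_mem measurableSet_ball] with z hz0 hz1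
    by_cases hzx : u l z ∈ ball x ρ
    · apply Tendsto.mul_const
      have hi := hiff l z (h12 hz1) hz0 hzx
      by_cases hl : l ∈ A
      · rw [if_pos hl]
        exact ze_tendsto fun hW => hW.2 (hi.2 hl)
      · rw [if_neg hl]
        have hW : u l z ∈ WW S F := ⟨h.brs.mem l z (h12 hz1), fun hZ => hl (hi.1 hZ)⟩
        simp only [ze_W _ hW]
        exact tendsto_const_nhds
    · rw [hzero z hzx]
      simp

end Vale.Agent.P247.H821
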